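import Vale.Agent.P352.NF.E9
import Vale.Agent.P352.NC.E6
import Vale.Agent.P352.NC.E10

/-!
# P352: null-plane charges imply conformal invariance: block E11, the vectors vanish
-/

set_option linter.all false

noncomputable section

open MeasureTheory Filter Topology SchwartzMap Complex
open scoped SchwartzMap ComplexConjugate ContDiff LineDeriv

namespace Vale.Agent.P352.NF

open GF (Ix V Fn Fld Theory Sch IsLor bas eta o sim pd tr ev bar)
open H246 H496 H755 H15 H846 H246R H746 N86 NC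
open UniformSpace (Completion)

variable {D : Type*} [NormedAddCommGroup D] [InnerProductSpace ℂ D]
variable {Q : GF.Theory D} {T : Ix → Ix → GF.Fld D} {J : Ix → GF.Fld D}
variable {A : (V → V) → D → D} {K : V → D → D}

lemma e11_Xi_smul (hT : Q.IsStress T) (h : KS Q A K) {a : V} (ha : IsNull a) (x : V)
    (c : ℂ) (v : D) : Xi A K a x (c • v) = c • Xi A K a x v := by
  refine ext_inner_right ℂ fun w => ?_
  rw [Xi_symm hT h ha, inner_smul_left, inner_smul_left, Xi_symm hT h ha]

/-- the scalar part of the reduction -/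
lemma e11_gm_smul_left (c : ℝ) (x y : V) : GF.mdot (c • x) y = c * GF.mdot x y := by
  simp only [gf_mdot, Pi.smul_apply, smul_eq_mul]; ring

lemma e11_gm_smul_right (c : ℝ) (x y : V) : GF.mdot x (c • y) = c * GF.mdot x y := by
  simp only [gf_mdot, Pi.smul_apply, smul_eq_mul]; ring

lemma e11_null_smul {a : V} (ha : IsNull a) {c : ℝ} (hc : 0 < c) : IsNull (c • a) := by
  refine ⟨?_, ?_⟩
  · rw [e11_gm_smul_left, e11_gm_smul_right, ha.1]; ring
  · exact mul_pos hc ha.2

/-- the base point -/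
def e11x (a : V) : V := (a o)⁻¹ • bas o 1

lemma e11_gm_base {a : V} (ha : IsNull a) : GF.mdot a (e11x a) = 1 := by
  have h0 : a 0 ≠ 0 := ne_of_gt ha.2
  simp only [e11x, gf_mdot, Pi.smul_apply, smul_eq_mul, bas, o]
  simp
  field_simp

lemma e11_Xi_base (hT : Q.IsStress T) (h : KS Q A K) {a : V} (ha : IsNull a) (x : V)
    (v : D) : Xi A K a x v = ((GF.mdot a x ^ 2 : ℝ) : ℂ) • Xi A K a (e11x a) v := by
  rw [← Xi_smul hT h ha]
  refine Xi_dep hT h ha ?_ v
  rw [e11_gm_smul_right, e11_gm_base ha, mul_one]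

/-- the values vanish at all points along the null vectors `b` with `a·b > 0` -/
lemma e11_lm (hT : Q.IsStress T) (h : KS Q A K) {Φ : V → Fn → D}
    {lm : V → D → ℂ} (P : PV Q A Φ lm) (g : Ix → Ix → 𝓢(Mink, ℂ)) {a b : V} (ha : IsNull a)
    (hb : IsNull b) (hab : 0 < GF.mdot a b) (hb0 : b o = 1) (x : Mink) :
    lm b (U1 Q (-x) (Xi A K a (e11x a) (Xi A K a (e11x a) (tvec Q T g)))) = 0 := by
  have ha' : IsNull ((GF.mdot a b)⁻¹ • a) := e11_null_smul ha (inv_pos.2 hab)
  have h1 : GF.mdot ((GF.mdot a b)⁻¹ • a) b = 1 := by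
    rw [e11_gm_smul_left, inv_mul_cancel₀ hab.ne']
  have h2 : ∀ v : D, Xi A K ((GF.mdot a b)⁻¹ • a) b v =
      ((GF.mdot a b : ℝ) : ℂ) • Xi A K a (e11x a) v := by
    intro v
    rw [Xi_hom hT h ha (inv_pos.2 hab), e11_Xi_base hT h ha b, smul_smul]
    congr 1
    rw [← Complex.ofReal_mul]
    congr 1
    field_simp
  have h3 := all_zero hT h P g ha' hb h1 hb0 x.ofLp
  rw [h2, h2, e11_Xi_smul hT h ha, smul_smul] at h3
  have h4 : lm b (U1 Q (-x) ((((GF.mdot a b : ℝ) : ℂ) * ((GF.mdot a b : ℝ) : ℂ)) •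
      Xi A K a (e11x a) (Xi A K a (e11x a) (tvec Q T g)))) = 0 := h3
  rw [U1_smul, P.smul] at h4
  have h5 : ((GF.mdot a b : ℝ) : ℂ) ≠ 0 := by exact_mod_cast hab.ne'
  exact (mul_eq_zero.1 h4).resolve_left (mul_ne_zero h5 h5)

lemma e11_int (F : 𝓢(Mink, ℂ)) (hF : HasCompactSupport F) {f : Mink → ℂ} (hf : Continuous f) :
    Integrable fun x : Mink => conj (F x) * f x := by
  refine Continuous.integrable_of_hasCompactSupport (by fun_prop) ?_
  refine HasCompactSupport.mul_right ?_
  exact hF.comp_left (map_zero _)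

theorem Xi_zero (hT : Q.IsStress T) (hJ : IsVirial Q T J) (h : KS Q A K) {a : V}
    (ha : IsNull a) (x : V) (g : Ix → Ix → 𝓢(Mink, ℂ)) : Xi A K a x (tvec Q T g) = 0 := by
  obtain ⟨lj, hjr, hjc, Pj⟩ := pv_J (A := A) hJ h.toRep
  obtain ⟨lt, htr, htc, Pt⟩ := pv_T (A := A) hT h.toRep
  set w : D := Xi A K a (e11x a) (Xi A K a (e11x a) (tvec Q T g)) with hw
  have hj0 : ∀ (m : Ix) (y : Mink), lj m (U1 Q (-y) w) = 0 := by
    intro m y
    refine span_J ha (z := fun m => lj m (U1 Q (-y) w)) (fun b hb hb0 hab => ?_) m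
    exact e11_lm hT h Pj g ha hb hab hb0 y
  have hsym : ∀ (m n : Ix) (y : Mink), lt m n (U1 Q (-y) w) = lt n m (U1 Q (-y) w) := by
    intro m n y
    refine congrFun (H746.fun_unique (htc m n w) (htc n m w) fun F _ => ?_) y
    rw [← htr, ← htr, hT.symm m n _ _ (isTest_fl F)]
  have htrace : ∀ y : Mink, ∑ m, (GF.eta m : ℂ) * lt m m (U1 Q (-y) w) = 0 := by
    intro y
    refine congrFun (H746.fun_unique (h := fun y => ∑ m, (GF.eta m : ℂ) * lt m m (U1 Q (-y) w))
      (h' := fun _ => 0) (continuous_finset_sum _ fun m _ => continuous_const.mul (htc m m w))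
      continuous_const fun F hF => ?_) y
    have e1 : (fun x : Mink => conj (F x) * ∑ m, (GF.eta m : ℂ) * lt m m (U1 Q (-x) w)) =
        fun x : Mink => ∑ m, (GF.eta m : ℂ) * (conj (F x) * lt m m (U1 Q (-x) w)) := by
      funext x
      rw [Finset.mul_sum]
      exact Finset.sum_congr rfl fun m _ => by ring
    rw [e1, integral_finset_sum _ fun m _ => (e11_int F hF (htc m m w)).const_mul _]
    simp only [integral_const_mul, ← htr]
    have e2 : inner ℂ (tr T (fl F) Q.vac) w =
        ∑ m, (GF.eta m : ℂ) * inner ℂ (T m m (fl F) Q.vac) w := by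
      simp only [tr, sum_inner, inner_smul_left, conj_ofReal]
    rw [← e2, hJ.div _ _ (isTest_fl F), inner_neg_left, sum_inner]
    simp only [pd_fl, hjr, hj0, mul_zero, integral_zero, Finset.sum_const_zero, neg_zero]
  have ht0 : ∀ (m n : Ix) (y : Mink), lt m n (U1 Q (-y) w) = 0 := by
    intro m n y
    refine span_T ha (z := fun m n => lt m n (U1 Q (-y) w)) (fun m n => hsym m n y) (htrace y)
      (fun b hb hb0 hab => ?_) m n
    exact e11_lm hT h Pt g ha hb hab hb0 y
  have hin : inner ℂ (tvec Q T g) w = 0 := by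
    simp only [tvec, sum_inner, htr, ht0, mul_zero, integral_zero, Finset.sum_const_zero]
  have hY : Xi A K a (e11x a) (tvec Q T g) = 0 := by
    rw [hw, ← Xi_symm hT h ha] at hin
    exact inner_self_eq_zero.1 hin
  rw [e11_Xi_base hT h ha, hY, smul_zero]

end Vale.Agent.P352.NF

end
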