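import Vale.Agent.P352.G.Main
import Vale.Agent.P352.NF.Ks

/-!
# P352: the null rotations span the Lorentz transformations
-/

set_option linter.all false

noncomputable section

open MeasureTheory Filter Topology SchwartzMap
open scoped SchwartzMap ComplexConjugate ContDiff

namespace Vale.Agent.P352.NF

open GF (Ix V Fn Fld Theory Sch IsLor bas eta o sim pd tr improve ev bar Sep IsTest)
open H246 H496 H755 H15 H846
open G (NGen)
open GMain (C_add C_smul C_zero C_sub C_sum C_sm exists_one)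

variable {D : Type*} [NormedAddCommGroup D] [InnerProductSpace ℂ D]
variable {Q : GF.Theory D} {T : Ix → Ix → GF.Fld D} {J : Ix → GF.Fld D}
  {A : (V → V) → D → D} {K C : V → D → D}

/-- the null rotation that fixes `a`, if `a.a = a.w = 0` -/
def Nr (a w : V) : V → V := fun z => GF.mdot w z • a - GF.mdot a z • w

lemma Nr_sim (a w : V) : IsSim 0 (Nr a w) := by
  refine ⟨0, fun m n => eta m * w m * a n - eta m * a m * w n, ?_, ?_⟩
  · intro m n
    ring
  · intro z n
    simp only [Nr, GF.mdot, Fin.sum_univ_four, Pi.sub_apply, Pi.smul_apply,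
      smul_eq_mul, Pi.zero_apply]
    ring

lemma Nr_fol {a w : V} (ha : GF.mdot a a = 0) (hw : GF.mdot a w = 0) (z : V) :
    GF.mdot a (Nr a w z) = 0 := by
  have h : GF.mdot a (Nr a w z) = GF.mdot w z * GF.mdot a a - GF.mdot a z * GF.mdot a w := by
    simp only [Nr, GF.mdot, Fin.sum_univ_four, Pi.sub_apply, Pi.smul_apply, smul_eq_mul]
    ring
  rw [h, ha, hw, mul_zero, mul_zero, sub_zero]

lemma sim_addc {X X' : V → V} (hX : IsSim 0 X) (hX' : IsSim 0 X') (c : ℝ) :
    IsSim 0 (fun z => X z + c • X' z) := by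
  obtain ⟨d, w, hw, h⟩ := hX
  obtain ⟨d', w', hw', h'⟩ := hX'
  refine ⟨d + c • d', fun m n => w m n + c * w' m n, fun m n => ?_, fun z n => ?_⟩
  · have h1 := hw m n
    have h2 := hw' m n
    linear_combination h1 + c * h2
  · simp only [Pi.add_apply, Pi.smul_apply, smul_eq_mul, h, h', Fin.sum_univ_four]
    ring

/-- the vectors `e_0 + s e_i` -/
def nv (i : Ix) (s : ℝ) : V := fun n => if n = 0 then 1 else if n = i then s else 0

lemma nv_null {i : Ix} (hi : i ≠ 0) {s : ℝ} (hs : s * s = 1) : IsNull (nv i s) := by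
  constructor
  · fin_cases i <;> simp [GF.mdot, Fin.sum_univ_four, nv, eta, o] at hi ⊢ <;> linarith
  · simp [nv, o]

/-- A property of Poincaré transformations that is linear and true for translations and for null
rotations is true for all of them. -/
theorem sim_ind {P : (V → V) → Prop} (hc : ∀ c, P fun _ => c)
    (hn : ∀ a w, IsNull a → GF.mdot a w = 0 → P (Nr a w))
    (hadd : ∀ X X' (c : ℝ), IsSim 0 X → IsSim 0 X' → P X → P X' → P fun z => X z + c • X' z)
    {X : V → V} (hX : IsSim 0 X) : P X := by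
  obtain ⟨d, w, hw, h⟩ := hX
  have w00 := hw 0 0
  have w11 := hw 1 1
  have w22 := hw 2 2
  have w33 := hw 3 3
  have w01 := hw 0 1
  have w02 := hw 0 2
  have w03 := hw 0 3
  have w12 := hw 1 2
  have w13 := hw 1 3
  have w23 := hw 2 3
  simp only [eta, o] at w00 w11 w22 w33 w01 w02 w03 w12 w13 w23
  norm_num [Fin.ext_iff] at w00 w11 w22 w33 w01 w02 w03 w12 w13 w23
  have key : ∀ (i j : Ix) (s : ℝ), i ≠ 0 → j ≠ 0 → i ≠ j → s * s = 1 →
      P (Nr (nv i s) (bas j 1)) := by
    intro i j s hi hj hij hs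
    refine hn _ _ (nv_null hi hs) ?_
    fin_cases i <;> fin_cases j <;>
      simp [GF.mdot, Fin.sum_univ_four, nv, eta, o, bas] at hi hj hij ⊢
  have ns : ∀ (i j : Ix) (s : ℝ), IsSim 0 (Nr (nv i s) (bas j 1)) := fun i j s => Nr_sim _ _
  have one : (1:ℝ) * 1 = 1 := by norm_num
  have mone : (-1:ℝ) * -1 = 1 := by norm_num
  have s0 : IsSim 0 (fun _ : V => d) := const_sim d
  have p0 := hc d
  have p1 := hadd _ _ ((-w 0 1 + w 2 1) / 2) s0 (ns 2 1 1) p0
    (key 2 1 1 (by decide) (by decide) (by decide) one)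
  have s1 := sim_addc s0 (ns 2 1 1) ((-w 0 1 + w 2 1) / 2)
  have p2 := hadd _ _ ((-w 0 1 - w 2 1) / 2) s1 (ns 2 1 (-1)) p1
    (key 2 1 (-1) (by decide) (by decide) (by decide) mone)
  have s2 := sim_addc s1 (ns 2 1 (-1)) ((-w 0 1 - w 2 1) / 2)
  have p3 := hadd _ _ ((-w 0 2 + w 3 2) / 2) s2 (ns 3 2 1) p2
    (key 3 2 1 (by decide) (by decide) (by decide) one)
  have s3 := sim_addc s2 (ns 3 2 1) ((-w 0 2 + w 3 2) / 2)
  have p4 := hadd _ _ ((-w 0 2 - w 3 2) / 2) s3 (ns 3 2 (-1)) p3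
    (key 3 2 (-1) (by decide) (by decide) (by decide) mone)
  have s4 := sim_addc s3 (ns 3 2 (-1)) ((-w 0 2 - w 3 2) / 2)
  have p5 := hadd _ _ ((-w 0 3 + w 1 3) / 2) s4 (ns 1 3 1) p4
    (key 1 3 1 (by decide) (by decide) (by decide) one)
  have s5 := sim_addc s4 (ns 1 3 1) ((-w 0 3 + w 1 3) / 2)
  have p6 := hadd _ _ ((-w 0 3 - w 1 3) / 2) s5 (ns 1 3 (-1)) p5
    (key 1 3 (-1) (by decide) (by decide) (by decide) mone)
  convert p6 using 1
  funext z n
  rw [h]
  fin_cases n
  · simp [Nr, GF.mdot, Fin.sum_univ_four, nv, eta, o, bas]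
    linear_combination (z 0 / 2) * w00 - z 1 * w01 - z 2 * w02 - z 3 * w03
  · simp [Nr, GF.mdot, Fin.sum_univ_four, nv, eta, o, bas]
    linear_combination (-(z 1 / 2)) * w11 - z 3 * w13
  · simp [Nr, GF.mdot, Fin.sum_univ_four, nv, eta, o, bas]
    linear_combination (-(z 2 / 2)) * w22 - z 1 * w12
  · simp [Nr, GF.mdot, Fin.sum_univ_four, nv, eta, o, bas]
    linear_combination (-(z 3 / 2)) * w33 - z 2 * w23

/-- charges that commute with `T` commute with the generators of the Poincaré group -/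
lemma f7_comA0 (hs : ∀ a v w, IsNull a → inner ℂ (C a v) w = inner ℂ v (C a w))
    (hcT : ∀ a m n f v, IsNull a → GF.IsTest f → C a (T m n f v) = T m n f (C a v))
    (hR : Rep Q A)
    (hg : ∀ a b κ y ψ X v w, Adm a b κ ψ → IsSim 0 X →
      Fol a X → Tendsto (fun R => inner ℂ w
      (sm T (fun m n x => eta m * a m * (eta n * X x n) * ctf a b κ y ψ R x) v)) atTop
    (𝓝 ((∫ u, (ψ u : ℂ)) * inner ℂ w (A X v))))
    {a : V} (ha : IsNull a) {X : V → V} (hX : IsSim 0 X) (v : D) : C a (A X v) = A X (C a v) := by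
  -- generators that preserve the foliation by the planes of some null vector
  have key : ∀ (a' : V) (Y : V → V), IsNull a' → IsSim 0 Y →
      Fol a' Y → ∀ v, C a (A Y v) = A Y (C a v) := by
    intro a' Y ha' hY hl v
    obtain ⟨b', hb', hbb⟩ := H755.exists_dual ha'
    obtain ⟨κ, hκ, hκ1⟩ := exists_kp
    obtain ⟨ψ, hψ, hψ1⟩ := exists_one
    refine ext_inner_left ℂ fun w => ?_
    have hA : Adm a' b' κ ψ := ⟨ha', hb', hbb, hκ, hκ1, hψ⟩
    have h1 := hg a' b' κ 0 ψ Y v (C a w) hA hY hl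
    have h2 := hg a' b' κ 0 ψ Y (C a v) w hA hY hl
    rw [hψ1, one_mul] at h1 h2
    rw [← hs a _ _ ha]
    refine tendsto_nhds_unique h1 (h2.congr' ?_)
    filter_upwards [eventually_ge_atTop (1:ℝ)] with R hR
    have hF : ∀ m n, Tst (fun x => eta m * a' m * (eta n * Y x n) * ctf a' b' κ 0 ψ R x) :=
      fun m n => H846.ctf_tst ha'.1 hb'.1 hbb hκ hψ hR
        (contDiff_const.mul (contDiff_const.mul (H755.contDiff_sim hY n)))
    rw [← C_sm hs hcT ha hF v, hs a _ _ ha]
  refine sim_ind (P := fun Y => ∀ v, C a (A Y v) = A Y (C a v)) ?_ ?_ ?_ hX v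
  · intro c v
    exact key a _ ha (const_sim c) (fol_const a c) v
  · intro a' w ha' hw v
    exact key a' _ ha' (Nr_sim a' w) ⟨0, 0, fun z => by rw [Nr_fol ha'.1 hw]; ring⟩ v
  · intro Y Y' c hY hY' h1 h2 v
    have e : ∀ u, A (fun z => Y z + c • Y' z) u = A Y u + (c : ℂ) • A Y' u := fun u =>
      hR.add 0 0 c Y Y' u hY hY'
    rw [e, e, C_add hs ha, C_smul hs ha, h1, h2]

end Vale.Agent.P352.NF

end
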