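import Vale.Agent.P352.G.Main
import Vale.Agent.P352.N86.K.C1
import Vale.Agent.P352.NF.F7a

/-!
# P352: neutral generators from charges that commute with the fields, without the charges of the
virial current
-/

set_option linter.all false

noncomputable section

open MeasureTheory Filter Topology SchwartzMap
open scoped SchwartzMap ComplexConjugate ContDiff

namespace Vale.Agent.P352.NF

open GF (Ix V Fn Fld Theory Sch IsLor bas eta o sim pd tr improve ev bar Sep IsTest)
open H246 H496 H755 H15 H846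
open H746 (jg_tst tg_tst adm_of A_vac A_symm)
open G (NGen)
open GMain (C_add C_smul C_zero C_sub C_sum C_sm exists_one)

variable {D : Type*} [NormedAddCommGroup D] [InnerProductSpace ℂ D]
variable {Q : GF.Theory D} {T : Ix → Ix → GF.Fld D} {J : Ix → GF.Fld D}
  {A : (V → V) → D → D} {K C : V → D → D}

/-- the velocity field of the dilations -/
lemma f7_sim_E : IsSim 1 (fun z : V => z) :=
  ⟨0, fun _ _ => 0, fun m n => by simp, fun z n => by simp⟩

section

variable (hs : ∀ a v w, IsNull a → inner ℂ (C a v) w = inner ℂ v (C a w))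
include hs

section

variable (hcT : ∀ a m n f v, IsNull a → GF.IsTest f → C a (T m n f v) = T m n f (C a v))
include hcT

/-- charges that commute with `T` commute with the second moments -/
lemma f7_comK (hm : Mom Q T K) (hc : ∀ a b v w, IsNull a → IsNull b →
    Continuous fun u : ℝ => inner ℂ w (Q.U 1 GF.one (u • b) (K a (Q.U 1 GF.one (-(u • b)) v))))
    {a b : V} (ha : IsNull a) (hb : IsNull b) (v : D) :
    C a (K b v) = K b (C a v) := by
  obtain ⟨b', hb', hbb⟩ := H755.exists_dual hb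
  obtain ⟨κ, hκ, hκ1⟩ := exists_kp
  refine ext_inner_left ℂ fun w => ?_
  have key : (fun u : ℝ => inner ℂ (C a w) (Q.U 1 GF.one (u • b')
      (K b (Q.U 1 GF.one (-(u • b')) v)))) =
      fun u : ℝ => inner ℂ w (Q.U 1 GF.one (u • b') (K b (Q.U 1 GF.one (-(u • b')) (C a v)))) := by
    refine fun_uniqueR (hc b b' v (C a w) hb hb') (hc b b' (C a v) w hb hb')
      fun ψ hψ => ?_
    have hA : Adm b b' κ ψ := ⟨hb, hb', hbb, hκ, hκ1, hψ⟩
    have h1 := hm b b' κ 0 ψ v (C a w) hA
    have h2 := hm b b' κ 0 ψ (C a v) w hA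
    refine tendsto_nhds_unique h1 (h2.congr' ?_)
    filter_upwards [eventually_ge_atTop (1:ℝ)] with R hR
    have hF : ∀ m n, Tst (fun x => eta m * b m * (eta n * b n) * H15.sq b b' x *
        ctf b b' κ 0 ψ R x) := fun m n =>
      H846.ctf_tst hb.1 hb'.1 hbb hκ hψ hR (contDiff_const.mul (H846.contDiff_sq b b'))
    rw [← C_sm hs hcT ha hF v, hs a _ _ ha]
  have h0 := congrFun key 0
  simp only [zero_smul, neg_zero] at h0
  rw [U0, U0, U0, U0] at h0
  rw [← hs a _ _ ha]
  exact h0

end

/-- charges that commute with the dilations commute with their generator -/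
lemma f7_comE (hR : Rep Q A) (hd : ∀ a (s : ℝ) v, IsNull a → 0 < s →
      Q.U s GF.one 0 (C a v) = C a (Q.U s GF.one 0 v))
    {a : V} (ha : IsNull a) (v : D) :
    C a (A (fun z => z) v) = A (fun z => z) (C a v) := by
  have hder : ∀ v : D, HasDerivAt (fun e : ℝ => Q.U (Real.exp e) GF.one 0 v)
      (Complex.I • A (fun z => z) v) 0 := by
    intro v
    refine hR.der Real.exp (fun _ => GF.one) (fun _ => 0) _ v Real.exp_zero rfl rfl
      (fun e => ⟨Real.exp_pos e, isLor_one⟩) fun n x => ?_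
    have h1 : (fun e : ℝ => sim (Real.exp e) GF.one 0 x n) = fun e => Real.exp e * x n := by
      funext e
      simp [sim, GF.one, bas, Finset.mul_sum]
    rw [h1]
    simpa using (Real.hasDerivAt_exp 0).mul_const (x n)
  refine ext_inner_left ℂ fun w => ?_
  have h1 := (hasDerivAt_const (0:ℝ) (C a w)).inner ℂ (hder v)
  have h2 := (hasDerivAt_const (0:ℝ) w).inner ℂ (hder (C a v))
  simp only [inner_zero_left, add_zero] at h1 h2
  have h3 : (fun e : ℝ => inner ℂ (C a w) (Q.U (Real.exp e) GF.one 0 v)) =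
      fun e : ℝ => inner ℂ w (Q.U (Real.exp e) GF.one 0 (C a v)) := by
    funext e
    rw [hs a _ _ ha, hd a _ _ ha (Real.exp_pos e)]
  rw [h3] at h1
  have h4 := h1.unique h2
  rw [inner_smul_right, inner_smul_right] at h4
  rw [← hs a _ _ ha]
  exact mul_left_cancel₀ Complex.I_ne_zero h4

/-- charges that commute with the generators of the Poincaré group and of the dilations -/
lemma f7_comA (hR : Rep Q A) (hd : ∀ a (s : ℝ) v, IsNull a → 0 < s →
      Q.U s GF.one 0 (C a v) = C a (Q.U s GF.one 0 v))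
    {a : V} (ha : IsNull a) (h0 : ∀ X v, IsSim 0 X → C a (A X v) = A X (C a v))
    {r : ℝ} {X : V → V} (hX : IsSim r X) (v : D) : C a (A X v) = A X (C a v) := by
  have hX0 : IsSim 0 (fun z => X z + (-r) • z) := by
    obtain ⟨c, w, hw, h⟩ := hX
    refine ⟨c, w, hw, fun z n => ?_⟩
    simp only [Pi.add_apply, Pi.smul_apply, smul_eq_mul, h]
    ring
  have e : ∀ u : D, A X u = A (fun z => X z + (-r) • z) u + ((r : ℝ) : ℂ) • A (fun z => z) u := by
    intro u
    have h1 := hR.add 0 1 r _ _ u hX0 f7_sim_E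
    rw [← h1]
    congr 1
    funext z
    simp
  rw [e, e, C_add hs ha, C_smul hs ha, h0 _ _ hX0, f7_comE hs hR hd ha]

end

lemma f7_sim_one0 (x : V) : sim 1 GF.one 0 x = x := by
  funext n
  simp [sim, GF.one, bas]

lemma f7_linv_one : linv GF.one = GF.one := by
  funext m n
  fin_cases m <;> fin_cases n <;> simp [linv, GF.one, bas, eta] <;> split_ifs <;> norm_num

/-- charges that arise from the translations of `K` commute with the dilations -/
lemma f7_dil (hR : Rep Q A)
    (hcov : ∀ s L r a b v, 0 < s → 0 < r → IsLor L → IsNull a → IsNull b → sim 1 L 0 a = r • b →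
      Q.U s L 0 (K a v) = ((r / s : ℝ) : ℂ) • K b (Q.U s L 0 v))
    (htra : ∀ a x v, IsNull a → Q.U 1 GF.one x (K a (Q.U 1 GF.one (-x) v)) = K a v +
      A (fun z => -(2 * GF.mdot a x) • z + (2 * GF.mdot x z) • a - (2 * GF.mdot a z) • x +
        cK a x) v - ((2 * GF.mdot a x : ℝ) : ℂ) • C a v)
    (a : V) (s : ℝ) (v : D) (ha : IsNull a) (hs : 0 < s) :
    Q.U s GF.one 0 (C a v) = C a (Q.U s GF.one 0 v) := by
  obtain ⟨b, hb, hab⟩ := H755.exists_dual ha
  have hU : ∀ (y : V) (u : D), Q.U s GF.one 0 (Q.U 1 GF.one y u) =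
      Q.U 1 GF.one (s • y) (Q.U s GF.one 0 u) := by
    intro y u
    rw [hR.mul s GF.one 0 1 GF.one y u hs one_pos isLor_one isLor_one,
      hR.mul 1 GF.one (s • y) s GF.one 0 u one_pos hs isLor_one isLor_one]
    congr 1
    · rw [mul_one, one_mul]
    · funext n
      simp [sim, GF.one, bas]
  have hK : ∀ u : D, Q.U s GF.one 0 (K a u) = (((1 : ℝ) / s : ℝ) : ℂ) • K a (Q.U s GF.one 0 u) :=
    fun u => hcov s GF.one 1 a a u hs one_pos isLor_one ha ha (by rw [f7_sim_one0, one_smul])
  have hAs : ∀ u : D, Q.U s GF.one 0 (A (XX a b) u) =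
      (((1 : ℝ) / s : ℝ) : ℂ) • A (XX a (s • b)) (Q.U s GF.one 0 u) := by
    intro u
    rw [N86.A_conj hR (XX_sim a b) hs isLor_one 0 u]
    have h1 := hR.add 0 _ (1 / s) _ _ (Q.U s GF.one 0 u) (const_sim 0) (XX_sim a (s • b))
    have h0 : A (fun _ => (0 : V)) (Q.U s GF.one 0 u) = 0 := H755.A_zero' hR _
    rw [h0, zero_add] at h1
    rw [← h1]
    congr 1
    funext z n
    have e1 : sim s⁻¹ (linv GF.one) 0 (z - 0) = s⁻¹ • z := by
      rw [f7_linv_one]
      funext k
      simp [sim, GF.one, bas]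
    rw [e1, f7_sim_one0]
    simp only [XX, cK, md_smul, md_smul_l, Pi.add_apply, Pi.sub_apply, Pi.smul_apply,
      smul_eq_mul, zero_add, Pi.zero_apply]
    field_simp
  have key : ∀ u : D, (2 : ℂ) • C a u = K a u + A (XX a b) u -
      Q.U 1 GF.one b (K a (Q.U 1 GF.one (-b) u)) := by
    intro u
    have h1 := htra a b u ha
    have h2 : A (fun z => -(2 * GF.mdot a b) • z + (2 * GF.mdot b z) • a - (2 * GF.mdot a z) • b +
        cK a b) u = A (XX a b) u := rfl
    rw [h2, hab] at h1
    rw [h1]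
    have h3 : ((2 * (1:ℝ) : ℝ) : ℂ) = 2 := by norm_num
    rw [h3]
    abel
  have keys : ((2 * s : ℝ) : ℂ) • C a (Q.U s GF.one 0 v) = K a (Q.U s GF.one 0 v) +
      A (XX a (s • b)) (Q.U s GF.one 0 v) -
      Q.U 1 GF.one (s • b) (K a (Q.U 1 GF.one (-(s • b)) (Q.U s GF.one 0 v))) := by
    have h1 := htra a (s • b) (Q.U s GF.one 0 v) ha
    have h2 : A (fun z => -(2 * GF.mdot a (s • b)) • z + (2 * GF.mdot (s • b) z) • a -
        (2 * GF.mdot a z) • (s • b) + cK a (s • b)) (Q.U s GF.one 0 v) =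
          A (XX a (s • b)) (Q.U s GF.one 0 v) := rfl
    rw [h2, md_smul, hab, mul_one] at h1
    rw [h1]
    abel
  have h2 : (2 : ℂ) • Q.U s GF.one 0 (C a v) = (2 : ℂ) • C a (Q.U s GF.one 0 v) := by
    rw [← U_smul hs isLor_one, key, H746.U_sub' hs isLor_one, U_add hs isLor_one, hK, hAs, hU, hK,
      U_smul one_pos isLor_one, hU, smul_neg, ← smul_add, ← smul_sub, ← keys, smul_smul]
    congr 1
    have hs' : (s : ℂ) ≠ 0 := by exact_mod_cast hs.ne'
    push_cast
    field_simp
  exact smul_right_injective D two_ne_zero h2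

lemma f7_K_vac (hcov : ∀ s L r a b v, 0 < s → 0 < r → IsLor L → IsNull a → IsNull b →
      sim 1 L 0 a = r • b → Q.U s L 0 (K a v) = ((r / s : ℝ) : ℂ) • K b (Q.U s L 0 v))
    {a : V} (ha : IsNull a) : K a Q.vac = 0 := by
  have h1 := hcov 2 GF.one 1 a a Q.vac two_pos one_pos isLor_one ha ha (by
    rw [f7_sim_one0, one_smul])
  rw [Q.U_vac 2 GF.one 0 two_pos isLor_one] at h1
  have h2 := Q.U_inner 2 GF.one 0 (K a Q.vac) (K a Q.vac) two_pos isLor_one
  rw [h1, inner_smul_left, inner_smul_right] at h2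
  have h4 : (starRingEnd ℂ) (((1 / 2 : ℝ)) : ℂ) = ((1 / 2 : ℝ) : ℂ) := Complex.conj_ofReal _
  have h3 : inner ℂ (K a Q.vac) (K a Q.vac) = 0 := by
    rw [h4] at h2
    push_cast at h2
    linear_combination (-4 / 3 : ℂ) * h2
  exact inner_self_eq_zero.1 h3

/-- **Special conformal generators up to neutral charges**, from the Poincaré charges and the second
moments only. -/
theorem ngen_of (hT : Q.IsStress T) (h : NullMom Q T A K)
    (hs : ∀ a v w, IsNull a → inner ℂ (C a v) w = inner ℂ v (C a w))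
    (htra : ∀ a x v, IsNull a → Q.U 1 GF.one x (K a (Q.U 1 GF.one (-x) v)) = K a v +
      A (H755.XX a x) v - ((2 * GF.mdot a x : ℝ) : ℂ) • C a v)
    (hcT : ∀ a m n f v, IsNull a → GF.IsTest f → C a (T m n f v) = T m n f (C a v))
    (hcJ : ∀ a m f v, IsNull a → GF.IsTest f → C a (J m f v) = J m f (C a v)) :
    NGen Q J A K C := by
  have hcov : ∀ s L r a b v, 0 < s → 0 < r → IsLor L → IsNull a → IsNull b →
      sim 1 L 0 a = r • b → Q.U s L 0 (K a v) = ((r / s : ℝ) : ℂ) • K b (Q.U s L 0 v) :=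
    fun s L r a b v hs hr hL ha hb hab => nm_cov hT h v hs hr hL ha hb hab
  have hvac : ∀ a, IsNull a → C a Q.vac = 0 := by
    intro a ha
    obtain ⟨b, hb, hab⟩ := H755.exists_dual ha
    have h1 := htra a b Q.vac ha
    rw [Q.U_vac 1 GF.one (-b) one_pos isLor_one, f7_K_vac hcov ha, hab,
      A_vac h.toRep (XX_sim a b)] at h1
    have h4 : Q.U 1 GF.one b (0 : D) = 0 := by
      have := U_smul (Q := Q) one_pos isLor_one b 0 (0 : D)
      rwa [zero_smul, zero_smul] at this
    rw [h4, add_zero, zero_sub] at h1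
    have h5 := neg_eq_zero.1 h1.symm
    have h6 : (((2 * (1:ℝ) : ℝ)) : ℂ) ≠ 0 := by norm_num
    exact (smul_eq_zero.1 h5).resolve_left h6
  exact
    { toRep := h.toRep
      symm := fun a v w ha => nm_symm hT h ha v w
      cov := hcov
      tra := htra
      comJ := hcJ
      comK := fun a b v ha hb => f7_comK hs hcT h.mom h.cont ha hb v
      comA := fun a r X v ha hX => f7_comA hs h.toRep
        (fun a s v ha hs' => f7_dil h.toRep hcov htra a s v ha hs') ha
        (fun X v hX => f7_comA0 hs hcT h.toRep h.gen ha hX v) hX v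
      vac := hvac
      symC := hs }

/-- **Conformal invariance** from charges that commute with the fields. -/
theorem conf_of (hT : Q.IsStress T) (hJ : IsVirial Q T J) (h : NullMom Q T A K)
    (hs : ∀ a v w, IsNull a → inner ℂ (C a v) w = inner ℂ v (C a w))
    (htra : ∀ a x v, IsNull a → Q.U 1 GF.one x (K a (Q.U 1 GF.one (-x) v)) = K a v +
      A (H755.XX a x) v - ((2 * GF.mdot a x : ℝ) : ℂ) • C a v)
    (hcT : ∀ a m n f v, IsNull a → GF.IsTest f → C a (T m n f v) = T m n f (C a v))
    (hcJ : ∀ a m f v, IsNull a → GF.IsTest f → C a (J m f v) = J m f (C a v)) :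
    N86.ConfInv Q T :=
  G.H731.main_conf hT hJ (ngen_of hT h hs htra hcT hcJ) (Or.inl h.mom)

open Classical in
/-- the charge with a choice of the second null vector -/
def Cch (Q : Theory D) (A : (V → V) → D → D) (K : V → D → D) (a : V) (v : D) : D :=
  if ha : IsNull a then H121.Cop Q A K a (Classical.choose (H755.exists_dual ha)) v else 0

/-- **Conformal invariance**, assembled from the blocks on the charge `Cop`. -/
theorem conf_fin (hT : Q.IsStress T) (hJ : IsVirial Q T J) (h : NullMom Q T A K)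
    (hs : ∀ a b, IsNull a → IsNull b → GF.mdot a b = 1 → ∀ v w,
      inner ℂ (H121.Cop Q A K a b v) w = inner ℂ v (H121.Cop Q A K a b w))
    (htra : ∀ a b, IsNull a → IsNull b → GF.mdot a b = 1 → ∀ x v,
      Q.U 1 GF.one x (K a (Q.U 1 GF.one (-x) v)) = K a v + A (H755.XX a x) v -
        ((2 * GF.mdot a x : ℝ) : ℂ) • H121.Cop Q A K a b v)
    (hcT : ∀ a b, IsNull a → IsNull b → GF.mdot a b = 1 → ∀ m n f v, GF.IsTest f →
      H121.Cop Q A K a b (T m n f v) = T m n f (H121.Cop Q A K a b v))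
    (hcJ : ∀ a b, IsNull a → IsNull b → GF.mdot a b = 1 → ∀ m f v, GF.IsTest f →
      H121.Cop Q A K a b (J m f v) = J m f (H121.Cop Q A K a b v)) :
    N86.ConfInv Q T := by
  have e : ∀ (a : V) (ha : IsNull a) (v : D), Cch Q A K a v =
      H121.Cop Q A K a (Classical.choose (H755.exists_dual ha)) v := fun a ha v => by
    simp only [Cch, dif_pos ha]
  have hc : ∀ (a : V) (ha : IsNull a), IsNull (Classical.choose (H755.exists_dual ha)) ∧
      GF.mdot a (Classical.choose (H755.exists_dual ha)) = 1 := fun a ha =>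
    Classical.choose_spec (H755.exists_dual ha)
  refine conf_of (C := Cch Q A K) hT hJ h ?_ ?_ ?_ ?_
  · intro a v w ha
    rw [e a ha, e a ha]
    exact hs a _ ha (hc a ha).1 (hc a ha).2 v w
  · intro a x v ha
    rw [e a ha]
    exact htra a _ ha (hc a ha).1 (hc a ha).2 x v
  · intro a m n f v ha hf
    rw [e a ha, e a ha]
    exact hcT a _ ha (hc a ha).1 (hc a ha).2 m n f v hf
  · intro a m f v ha hf
    rw [e a ha, e a ha]
    exact hcJ a _ ha (hc a ha).1 (hc a ha).2 m f v hf

end Vale.Agent.P352.NF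

end
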