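import Vale.Agent.P352.NC.E1
import Vale.Agent.P352.H731.Nc0

/-!
# P352: second moments whose second differences commute with the Poincaré generators
-/

set_option linter.all false

noncomputable section

open MeasureTheory Filter Topology SchwartzMap Complex
open scoped SchwartzMap ComplexConjugate ContDiff LineDeriv

namespace Vale.Agent.P352.NF

open GF (Ix V Fn Fld Theory Sch IsLor bas o sim pd tr ev bar)
open H246 H496 H755 H15 H846 H246R H746 N86 NC
open UniformSpace (Completion)

variable {D : Type*} [NormedAddCommGroup D] [InnerProductSpace ℂ D]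
variable {Q : GF.Theory D} {T : Ix → Ix → GF.Fld D} {J : Ix → GF.Fld D}
variable {A : (V → V) → D → D} {K : V → D → D}

/-- continuous functions with the midpoint property are affine -/
lemma f4_mid {p : ℝ → ℂ} (hc : Continuous p) (h : ∀ u t, p (u + t) + p (u - t) = 2 * p u)
    (u : ℝ) : p u = p 0 + (u : ℂ) * (p 1 - p 0) := by
  have hadd : ∀ x y, p x + p y = p (x + y) + p 0 := by
    intro x y
    have h1 := h ((x + y) / 2) ((x - y) / 2)
    have h2 := h ((x + y) / 2) ((x + y) / 2)
    have e1 : (x + y) / 2 + (x - y) / 2 = x := by ring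
    have e2 : (x + y) / 2 - (x - y) / 2 = y := by ring
    have e3 : (x + y) / 2 + (x + y) / 2 = x + y := by ring
    rw [e1, e2] at h1
    rw [e3, sub_self] at h2
    rw [h1, h2]
  let g : ℝ →+ ℂ :=
    { toFun := fun s => p s - p 0
      map_zero' := sub_self _
      map_add' := fun x y => by
        have h3 := hadd x y
        linear_combination -h3 }
  have hg : Continuous g := hc.sub continuous_const
  have h5 := (g.toRealLinearMap hg).map_smul u 1
  have h6 : g.toRealLinearMap hg (u • (1:ℝ)) = g (u • (1:ℝ)) := rfl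
  have h7 : g.toRealLinearMap hg 1 = g 1 := rfl
  rw [h6, h7, smul_eq_mul, mul_one, Complex.real_smul] at h5
  have h8 : p u - p 0 = (u : ℂ) * (p 1 - p 0) := h5
  linear_combination h8

/-- the second moments on the hyperplane `a·x = u` -/
def Ku (Q : GF.Theory D) (K : V → D → D) (a b : V) (u : ℝ) (v : D) : D :=
  Q.U 1 GF.one (u • b) (K a (Q.U 1 GF.one (-(u • b)) v))

lemma Ku_zero (a b : V) (v : D) : Ku Q K a b 0 v = K a v := by
  unfold Ku
  rw [zero_smul, neg_zero, Uone, Uone]

lemma Ku_shift (a b : V) (u s : ℝ) (v : D) :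
    Q.U 1 GF.one (s • b) (Ku Q K a b u (Q.U 1 GF.one (-(s • b)) v)) = Ku Q K a b (u + s) v := by
  unfold Ku
  rw [Uadd1, Uadd1]
  have e1 : s • b + u • b = (u + s) • b := by module
  have e2 : -(u • b) + -(s • b) = -((u + s) • b) := by module
  rw [e1, e2]

lemma Sd_Ku (a b : V) (u t : ℝ) (v : D) : Sd Q A K a b u t v = Ku Q K a b (u + t) v +
    Ku Q K a b (u - t) v - (2 : ℂ) • Ku Q K a b u v - ((4 * t ^ 2 : ℝ) : ℂ) • A (fun _ => b) v := by
  unfold Sd kv Ku
  push_cast
  module

/-- the boosts -/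
lemma f4_boost {a b : V} (ha : IsNull a) (hb : IsNull b) (hab : GF.mdot a b = 1) :
    ∃ L : ℝ → Ix → V, L 0 = GF.one ∧ (∀ e, IsLor (L e)) ∧
      (∀ m n, HasDerivAt (fun e => L e m n) (GF.eta m * (a m * b n - b m * a n)) 0) ∧
      ∀ e, sim 1 (L e) 0 a = Real.exp (-e) • a := by
  have hba : GF.mdot b a = 1 := by rw [md_comm]; exact hab
  have key : ∀ z n, ∑ m, z m * (GF.eta m * (a m * b n - b m * a n)) =
      GF.mdot a z * b n - GF.mdot b z * a n := by
    intro z n
    simp only [GF.mdot, Fin.sum_univ_four]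
    ring
  obtain ⟨L, h0, hL, hd, he, -⟩ := H731.exists_lor_eig
    (w := fun m n => GF.eta m * (a m * b n - b m * a n)) (fun m n => by ring) (a := a) (l := -1)
    (fun n => by rw [key, ha.1, hba]; ring)
    (fun z hz => ⟨-GF.mdot b z, fun n => by rw [key, hz]; ring⟩)
  refine ⟨L, h0, hL, hd, fun e => ?_⟩
  funext n
  have h1 := he e n
  simp only [sim, Pi.zero_apply, one_mul, zero_add, Pi.smul_apply, smul_eq_mul]
  rw [h1]
  congr 2
  ring

lemma f4_Nf_fol (a b z : V) : GF.mdot a (Nf a b z) =
    GF.mdot a z * GF.mdot a b - GF.mdot b z * GF.mdot a a := by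
  simp only [Nf, GF.mdot, Fin.sum_univ_four, Pi.sub_apply, Pi.smul_apply, smul_eq_mul]
  ring

lemma f4_Nf_sim (a b : V) : IsSim 0 (Nf a b) := by
  refine ⟨0, fun m n => GF.eta m * (a m * b n - b m * a n), fun m n => by ring, fun z n => ?_⟩
  show GF.mdot a z * b n - GF.mdot b z * a n = _
  simp only [GF.mdot, Fin.sum_univ_four, Pi.zero_apply]
  ring

section

variable (R : H15.Rep Q A) {a b : V} (ha : IsNull a) (hb : IsNull b) (hab : GF.mdot a b = 1)
  (hsym : ∀ v w, inner ℂ (K a v) w = inner ℂ v (K a w))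
  (hcov : ∀ (r : ℝ) (L : Ix → V) (v : D), 0 < r → IsLor L → sim 1 L 0 a = r • a →
    Q.U 1 L 0 (K a v) = (r : ℂ) • K a (Q.U 1 L 0 v))

include R ha hb hab hsym hcov in
/-- the commutator of `K a` and the boost generator -/
lemma f4_NK (v : D) : A (Nf a b) (K a v) = K a (A (Nf a b) v) + I • K a v := by
  obtain ⟨L, h0, hL, hd, he⟩ := f4_boost ha hb hab
  have hN := f4_Nf_sim a b
  have hder : ∀ v : D, HasDerivAt (fun e => Q.U 1 (L e) 0 v) (I • A (Nf a b) v) 0 := by
    intro v
    refine R.der (fun _ => 1) L (fun _ => 0) (Nf a b) v rfl h0 rfl (fun e => ⟨one_pos, hL e⟩)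
      fun n x => ?_
    have e : (fun e => sim 1 (L e) 0 x n) = fun e => ∑ m, x m * L e m n := by
      funext e
      simp [sim]
    rw [e]
    have h2 : HasDerivAt (fun e => ∑ m, x m * L e m n)
        (∑ m, x m * (GF.eta m * (a m * b n - b m * a n))) 0 :=
      HasDerivAt.fun_sum fun m _ => (hd m n).const_mul (x m)
    refine h2.congr_deriv ?_
    show _ = GF.mdot a x * b n - GF.mdot b x * a n
    simp only [GF.mdot, Fin.sum_univ_four]
    ring
  have hU0 : ∀ v : D, Q.U 1 (L 0) 0 v = v := by
    intro v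
    rw [h0]
    exact U1_zero_all (Q := Q) v
  refine ext_inner_left ℂ fun z => ?_
  have h1 : HasDerivAt (fun e => inner ℂ z (Q.U 1 (L e) 0 (K a v)))
      (inner ℂ z (I • A (Nf a b) (K a v))) 0 :=
    ((innerSL ℂ z).restrictScalars ℝ).hasFDerivAt.comp_hasDerivAt (0 : ℝ) (hder (K a v))
  have h2 : HasDerivAt (fun e => inner ℂ (K a z) (Q.U 1 (L e) 0 v))
      (inner ℂ (K a z) (I • A (Nf a b) v)) 0 :=
    ((innerSL ℂ (K a z)).restrictScalars ℝ).hasFDerivAt.comp_hasDerivAt (0 : ℝ) (hder v)
  have h3 : HasDerivAt (fun e : ℝ => ((Real.exp (-e) : ℝ) : ℂ)) (-1) 0 := by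
    have h4 : HasDerivAt (fun e : ℝ => Real.exp (-e)) (Real.exp (-0) * (-1)) 0 :=
      (hasDerivAt_neg (0 : ℝ)).exp
    have h5 := h4.ofReal_comp
    refine h5.congr_deriv ?_
    simp
  have h6 := h3.mul h2
  have e1 : (fun e => inner ℂ z (Q.U 1 (L e) 0 (K a v))) =
      (fun e : ℝ => ((Real.exp (-e) : ℝ) : ℂ)) * fun e => inner ℂ (K a z) (Q.U 1 (L e) 0 v) := by
    funext e
    rw [hcov (Real.exp (-e)) (L e) v (Real.exp_pos _) (hL e) (he e), inner_smul_right]
    show _ = ((Real.exp (-e) : ℝ) : ℂ) * inner ℂ (K a z) (Q.U 1 (L e) 0 v)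
    rw [hsym]
  rw [← e1] at h6
  have h7 := h1.unique h6
  rw [inner_smul_right, inner_smul_right, hU0] at h7
  simp only [neg_zero, Real.exp_zero, ofReal_one] at h7
  rw [inner_add_right, inner_smul_right, ← hsym z v, ← hsym z (A (Nf a b) v)]
  have hI : I * I = -1 := I_mul_I
  linear_combination (-I) * h7 + (inner ℂ z (A (Nf a b) (K a v)) -
    inner ℂ (K a z) (A (Nf a b) v)) * hI

include R hb hab in
/-- translation of the boost generator -/
lemma f4_NU (u : ℝ) (v : D) : A (Nf a b) (Q.U 1 GF.one (u • b) v) =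
    Q.U 1 GF.one (u • b) (A (Nf a b) v + (u : ℂ) • A (fun _ => b) v) := by
  have h := A_tra R (f4_Nf_sim a b) (u • b) v
  have h1 : (fun z => Nf a b (z + u • b)) = fun z => Nf a b z + u • (fun _ : V => b) z := by
    funext z
    unfold Nf
    rw [md_add, md_add, md_smul, md_smul, hab, hb.1]
    module
  rw [h1, R.add 0 0 u (Nf a b) (fun _ => b) v (f4_Nf_sim a b) (const_sim _)] at h
  have h2 := congrArg (Q.U 1 GF.one (u • b)) h
  rw [Uadd1, add_neg_cancel, Uone] at h2
  exact h2

include R hb hab in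
lemma f4_NP (v : D) : A (Nf a b) (A (fun _ => b) v) =
    A (fun _ => b) (A (Nf a b) v) - I • A (fun _ => b) v := by
  have h := e1_AP R (f4_Nf_sim a b) b v
  have e : Nf a b b - Nf a b 0 = b := by
    have h0 : ∀ x : V, GF.mdot x 0 = 0 := fun x => by simp [GF.mdot]
    unfold Nf
    rw [hab, hb.1, h0, h0]
    module
  rw [e] at h
  exact h

include R ha hb hab hsym hcov in
/-- the commutator of the translated moments and the boost generator -/
lemma f4_NKu (u : ℝ) (v : D) : A (Nf a b) (Ku Q K a b u v) = Ku Q K a b u (A (Nf a b) v) +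
    I • Ku Q K a b u v + (u : ℂ) • (A (fun _ => b) (Ku Q K a b u v) -
      Ku Q K a b u (A (fun _ => b) v)) := by
  have hK : Adj (K a) (K a) := hsym
  have hUa := U_add (Q := Q) one_pos isLor_one (u • b)
  have hUm := U_smul (Q := Q) one_pos isLor_one (u • b)
  have hUs := H746.U_sub' (Q := Q) one_pos isLor_one (u • b)
  have e1 : A (Nf a b) (Q.U 1 GF.one (-(u • b)) v) = Q.U 1 GF.one (-(u • b)) (A (Nf a b) v) -
      (u : ℂ) • Q.U 1 GF.one (-(u • b)) (A (fun _ => b) v) := by
    have h1 := f4_NU R hb hab (-u) v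
    have e : (-u) • b = -(u • b) := by module
    rw [e, U_add one_pos isLor_one, U_smul one_pos isLor_one] at h1
    rw [h1]
    push_cast
    module
  unfold Ku
  rw [f4_NU R hb hab, f4_NK R ha hb hab hsym hcov, e1, e1_PU R]
  have hKs : ∀ x y, K a (x - y) = K a x - K a y := by
    intro x y
    rw [sub_eq_add_neg, ← neg_one_smul ℂ y, hK.add, hK.smul, neg_one_smul, ← sub_eq_add_neg]
  simp only [hUa, hUm, hKs, hK.smul, hUs]
  module

include R ha hb hab hsym hcov in
/-- **The second differences vanish if they commute with the Poincaré generators** that preserve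
the foliation. -/
theorem sd_zero_of (hcont : ∀ v w, Continuous fun u : ℝ => inner ℂ w (Ku Q K a b u v))
    (hA : ∀ X, IsSim 0 X → (∃ l c : ℝ, ∀ z, GF.mdot a (X z) = l * GF.mdot a z + c) →
      ∀ u t v, Sd Q A K a b u t (A X v) = A X (Sd Q A K a b u t v))
    (u t : ℝ) (v : D) : Sd Q A K a b u t v = 0 := by
  have hK : Adj (K a) (K a) := hsym
  have hP := A_symm R (const_sim b)
  have hN := A_symm R (f4_Nf_sim a b)
  -- the matrix elements
  set g : D → D → ℝ → ℂ := fun v w u => inner ℂ w (Ku Q K a b u v) with hg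
  set p : D → D → ℝ → ℂ := fun v w u => inner ℂ w (A (fun _ => b) (Ku Q K a b u v)) -
    inner ℂ w (Ku Q K a b u (A (fun _ => b) v)) with hp
  have hpc : ∀ v w, Continuous (p v w) := by
    intro v w
    have e : p v w = fun u => g v (A (fun _ => b) w) u - g (A (fun _ => b) v) w u := by
      funext u
      simp only [hp, hg]
      rw [hP]
    rw [e]
    exact (hcont v _).sub (hcont _ w)
  have hPa := fun v w => e1_add R (const_sim b) v w
  have hPs := fun v w => e1_sub R (const_sim b) v w
  have hPm := fun c v => e1_smul R (const_sim b) c v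
  have hNa := fun v w => e1_add R (f4_Nf_sim a b) v w
  have hNs := fun v w => e1_sub R (f4_Nf_sim a b) v w
  have hNm := fun c v => e1_smul R (f4_Nf_sim a b) c v
  -- commutation with the translations
  have s1 : ∀ v w u t, p v w (u + t) + p v w (u - t) = 2 * p v w u := by
    intro v w u t
    have h1 := congrArg (fun z => inner ℂ w z) (hA _ (const_sim b)
      ⟨0, GF.mdot a b, fun z => by ring⟩ u t v)
    simp only [Sd_Ku, hPa, hPs, hPm, inner_add_right, inner_sub_right, inner_smul_right] at h1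
    simp only [hp]
    linear_combination -h1
  -- commutation with the boosts
  have s2 : ∀ v w u t, g v w (u + t) + g v w (u - t) - 2 * g v w u =
      -(4 * (t : ℂ) ^ 2) * inner ℂ w (A (fun _ => b) v) +
        I * t * (p v w (u + t) - p v w (u - t)) := by
    intro v w u t
    have h1 := congrArg (fun z => inner ℂ w z) (hA _ (f4_Nf_sim a b)
      ⟨1, 0, fun z => by rw [f4_Nf_fol, ha.1, hab]; ring⟩ u t v)
    simp only [Sd_Ku, hNa, hNs, hNm, f4_NKu R ha hb hab hsym hcov, f4_NP R hb hab,
      inner_add_right, inner_sub_right, inner_smul_right] at h1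
    have h2 := s1 v w u t
    simp only [hp] at h2 ⊢
    simp only [hg]
    push_cast at h1
    have hI : I * I = -1 := I_mul_I
    linear_combination I * h1 + (I * u) * h2 + (inner ℂ w (Ku Q K a b (u + t) v) +
      inner ℂ w (Ku Q K a b (u - t) v) - 2 * inner ℂ w (Ku Q K a b u v) +
      4 * (t : ℂ) ^ 2 * inner ℂ w (A (fun _ => b) v)) * hI
  have s3 : ∀ v w u, p v w u = p v w 0 + (u : ℂ) * (p v w 1 - p v w 0) := fun v w u =>
    f4_mid (hpc v w) (s1 v w) u
  set κ : D → D → ℂ := fun v w => -4 * inner ℂ w (A (fun _ => b) v) +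
    2 * I * (p v w 1 - p v w 0) with hκ
  have s4 : ∀ v w u t, g v w (u + t) + g v w (u - t) - 2 * g v w u = (t : ℂ) ^ 2 * κ v w := by
    intro v w u t
    rw [s2, s3 v w (u + t), s3 v w (u - t), hκ]
    push_cast
    ring
  -- the moments are quadratic polynomials
  have s5 : ∀ v w (u : ℝ), g v w u = g v w 0 + (u : ℂ) * (g v w 1 - g v w 0 - κ v w / 2) +
      (u : ℂ) ^ 2 * (κ v w / 2) := by
    intro v w u
    have h1 := f4_mid (p := fun u => g v w u - (u : ℂ) ^ 2 * (κ v w / 2))
      ((hcont v w).sub (by fun_prop)) (fun u t => by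
        have h2 := s4 v w u t
        push_cast
        linear_combination h2) u
    push_cast at h1
    linear_combination h1
  set C1 : D → D := fun v => (1 / 2 : ℂ) • (Ku Q K a b 1 v - Ku Q K a b (-1) v) with hC1
  set C2 : D → D := fun v => (1 / 2 : ℂ) • (Ku Q K a b 1 v + Ku Q K a b (-1) v - (2 : ℂ) • K a v)
    with hC2
  have s6 : ∀ v (u : ℝ), Ku Q K a b u v = K a v + (u : ℂ) • C1 v + ((u ^ 2 : ℝ) : ℂ) • C2 v := by
    intro v u
    refine ext_inner_left ℂ fun w => ?_
    have h1 := s5 v w u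
    have h2 := s5 v w (-1)
    have h3 : g v w 0 = inner ℂ w (K a v) := by
      simp only [hg]
      rw [Ku_zero]
    simp only [hC1, hC2, inner_add_right, inner_sub_right, inner_smul_right]
    rw [h3] at h1 h2
    simp only [hg] at h1 h2
    push_cast at h1 h2 ⊢
    linear_combination h1 - ((u : ℂ) ^ 2 / 2 - (u : ℂ) / 2) * h2
  -- the first coefficient
  have s7 : ∀ v, A (fun _ => b) (K a v) - K a (A (fun _ => b) v) = (-I) • C1 v := by
    intro v
    have h1 := e1_comm R hK (x := -b) (v := v) (C := C1 v) (E := C2 v) (fun s => by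
      have e1 : s • -b = -(s • b) := by module
      have h2 := congrArg (Q.U 1 GF.one (-(s • b))) (s6 v s)
      rw [Ku, Uadd1, neg_add_cancel, Uone] at h2
      rw [e1, h2])
    have e2 : ∀ z : D, A (fun _ => -b) z = -A (fun _ => b) z := by
      intro z
      have h3 := e1_smulv R (-1) b z
      have e3 : (-1 : ℝ) • b = -b := by module
      rw [e3] at h3
      rw [h3]
      push_cast
      rw [neg_one_smul]
    have hKn : ∀ z, K a (-z) = -K a z := by
      intro z
      have h4 := hK.smul (-1 : ℂ) z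
      rwa [neg_one_smul, neg_one_smul] at h4
    rw [e2, e2, hKn] at h1
    rw [neg_smul]
    have h5 : K a (A (fun _ => b) v) = A (fun _ => b) (K a v) + I • C1 v := by
      rw [← neg_neg (K a (A (fun _ => b) v)), h1]
      abel
    rw [h5]
    abel
  have s8 : ∀ v w u, p v w u = -I * (inner ℂ w (C1 v) + 2 * (u : ℂ) * inner ℂ w (C2 v)) := by
    intro v w u
    have hUs := H746.U_sub' (Q := Q) one_pos isLor_one (u • b)
    have h1 := congrArg (Q.U 1 GF.one (u • b)) (s7 (Q.U 1 GF.one (-(u • b)) v))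
    rw [hUs, U_smul one_pos isLor_one, e1_PU R, ← e1_PU R b (u • b)] at h1
    have h2 : Q.U 1 GF.one (u • b) (C1 (Q.U 1 GF.one (-(u • b)) v)) =
        C1 v + (2 * (u : ℂ)) • C2 v := by
      simp only [hC1]
      rw [U_smul one_pos isLor_one, hUs, Ku_shift, Ku_shift, s6 v (1 + u), s6 v (-1 + u), s6 v 1,
        s6 v (-1)]
      push_cast
      module
    rw [h2] at h1
    have h3 := congrArg (fun z => inner ℂ w z) h1
    simp only [inner_sub_right, inner_smul_right, inner_add_right] at h3
    simp only [hp]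
    exact h3
  refine ext_inner_left ℂ fun w => ?_
  have h1 := s4 v w u t
  have h2 : inner ℂ w (C2 v) = κ v w / 2 := by
    have h3 := s5 v w (-1)
    have h4 : g v w 0 = inner ℂ w (K a v) := by
      simp only [hg]
      rw [Ku_zero]
    simp only [hC2, inner_smul_right, inner_add_right, inner_sub_right]
    rw [h4] at h3
    simp only [hg] at h3
    push_cast at h3
    linear_combination (1 / 2 : ℂ) * h3
  have h3 : κ v w = 4 * inner ℂ w (A (fun _ => b) v) := by
    have h4 := s8 v w 1
    have h5 := s8 v w 0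
    have h6 : κ v w = -4 * inner ℂ w (A (fun _ => b) v) + 2 * I * (p v w 1 - p v w 0) := rfl
    rw [h4, h5, h2] at h6
    push_cast at h6
    have hI : I * I = -1 := I_mul_I
    linear_combination -h6 + (2 * κ v w) * hI
  rw [Sd_Ku, inner_sub_right, inner_sub_right, inner_add_right, inner_smul_right,
    inner_smul_right, inner_zero_right]
  rw [h3] at h1
  simp only [hg] at h1
  push_cast
  linear_combination h1

end

end Vale.Agent.P352.NF

end
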