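import Vale.Agent.P352.NF.Defs
import Vale.Agent.P352.H246.CopLoc
import Vale.Agent.P352.H755.ChF

/-!
# P352 NF, block F1a: the commutators of the generators with the fields are local
-/

set_option linter.all false

noncomputable section

open MeasureTheory Filter Topology SchwartzMap Complex
open scoped SchwartzMap ComplexConjugate ContDiff LineDeriv

namespace Vale.Agent.P352.NF

open GF (Ix V Fn Fld Theory Sch IsLor bas eta o sim pd tr ev bar)
open H246 H496 H755 H15 H746

variable {D : Type*} [NormedAddCommGroup D] [InnerProductSpace ℂ D]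
variable {Q : GF.Theory D} {T : Ix → Ix → GF.Fld D} {J : Ix → GF.Fld D}
variable {A : (V → V) → D → D} {K : V → D → D}

/-- the commutators of the generators with `φ` are local -/
def GenLoc (Q : GF.Theory D) (A : (V → V) → D → D) (φ : GF.Fld D) : Prop :=
  ∀ (r : ℝ) (X : V → V), IsSim r X → ∀ f : Fn, GF.IsTest f → ∀ W : Set V,
    (∀ x ∈ tsupport f, ∀ y ∈ W, GF.mdot (x - y) (x - y) < 0) → ∀ Y Y' : D → D, Al Q W Y Y' →
    ∀ v, A X (φ f (Y v)) - φ f (A X (Y v)) = Y (A X (φ f v) - φ f (A X v))

lemma f1_tsup {X : V → V} {f : Fn} : tsupport (vf X f) ⊆ tsupport f := by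
  refine closure_minimal (fun x hx => ?_) (isClosed_tsupport _)
  by_contra hn
  refine hx ?_
  unfold vf
  refine Finset.sum_eq_zero fun n _ => ?_
  rw [image_eq_zero_of_notMem_tsupport fun h => hn (tsupport_pd n h), mul_zero]

lemma f1_sum {W : Set V} {Y Y' : D → D} (hY : Al Q W Y Y') {ι : Type*} (s : Finset ι)
    (c : ι → ℂ) (u : ι → D) : Y (∑ k ∈ s, c k • u k) = ∑ k ∈ s, c k • Y (u k) := by
  classical
  induction s using Finset.induction_on with
  | empty =>
    have h := hY.map_smul 0 0
    rw [zero_smul, zero_smul] at h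
    simpa using h
  | insert i s hi ih =>
    rw [Finset.sum_insert hi, Finset.sum_insert hi, hY.map_add, hY.map_smul, ih]

theorem gl_T (h : H15.Rep Q A) (hT : Q.IsStress T) (m n : Ix) : GenLoc Q A (T m n) := by
  intro r X hX f hf W hW Y Y' hY v
  have hX' := hX
  obtain ⟨c, w, hw, hX⟩ := hX
  have e : ∀ m n u, T m n f (Y u) = Y (T m n f u) := fun m n u =>
    bose_al (hT.bose m n) hf hW hY u
  have e' : T m n (vf X f) (Y v) = Y (T m n (vf X f) v) :=
    bose_al (hT.bose m n) (isTest_vf hX' hf) (fun x hx => hW x (f1_tsup hx)) hY v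
  rw [A_T h hT hw hX hf m n (Y v), A_T h hT hw hX hf m n v, add_sub_cancel_left,
    add_sub_cancel_left, hY.map_smul, hY.map_add, hY.map_add, f1_sum hY, f1_sum hY, e']
  simp only [e]

theorem gl_J (h : H15.Rep Q A) (hJ : IsVirial Q T J) (m : Ix) : GenLoc Q A (J m) := by
  intro r X hX f hf W hW Y Y' hY v
  have hX' := hX
  obtain ⟨c, w, hw, hX⟩ := hX
  have e : ∀ m u, J m f (Y u) = Y (J m f u) := fun m u => bose_al (hJ.bose m) hf hW hY u
  have e' : J m (vf X f) (Y v) = Y (J m (vf X f) v) :=
    bose_al (hJ.bose m) (isTest_vf hX' hf) (fun x hx => hW x (f1_tsup hx)) hY v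
  rw [A_J h hJ hw hX hf m (Y v), A_J h hJ hw hX hf m v, add_sub_cancel_left,
    add_sub_cancel_left, hY.map_smul, hY.map_add, hY.map_add, hY.map_smul, f1_sum hY, e']
  simp only [e]

end Vale.Agent.P352.NF

end
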