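import Vale.Agent.P352.NF.F4
import Vale.Agent.P352.NF.F1a
import Vale.Agent.P352.H846.TnDefs

/-!
# The generators act locally on the tensor fields
-/

set_option linter.all false

noncomputable section

open MeasureTheory SchwartzMap Filter Topology Set
open scoped SchwartzMap ContDiff ComplexConjugate

namespace Vale.Agent.P352.NF

open GF (Ix V Fn Fld bas eta o bar)
open H755 H496 H15 H121 H246 H746 H846

variable {D : Type*} [NormedAddCommGroup D] [InnerProductSpace ℂ D]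
variable {Q : GF.Theory D} {A : (V → V) → D → D}

lemma g1_one {l : ℕ} (ν μ : Fin l → Ix) :
    (∏ i, GF.one (ν i) (μ i) : ℝ) = if ν = μ then 1 else 0 := by
  split_ifs with h
  · subst h
    exact Finset.prod_eq_one fun i _ => by simp [GF.one, bas]
  · obtain ⟨i, hi⟩ := Function.ne_iff.1 h
    exact Finset.prod_eq_zero (Finset.mem_univ i) (by simp [GF.one, bas, Ne.symm hi])

/-- infinitesimal covariance of the tensor fields -/
theorem A_ten (h : H15.Rep Q A) {l : ℕ} {d : ℝ} {Φ : (Fin l → Ix) → GF.Fld D}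
    (hΦ : IsTen Q l d Φ) {X : V → V} {r : ℝ} (hX : IsSim r X) (μ : Fin l → Ix) :
    ∃ C' : (Fin l → Ix) → ℝ, ∀ (f : Fn), GF.IsTest f → ∀ v,
      A X (Φ μ f v) = Φ μ f (A X v) + Complex.I •
        (∑ ν, (C' ν : ℂ) • Φ ν f v + Φ μ (vf X f) v) := by
  obtain ⟨c, w, hw, hX⟩ := hX
  obtain ⟨s, L, a, K⟩ := exists_crv hw r c
  let C : ℝ → (Fin l → Ix) → ℝ := fun e ν => s e ^ (4 - d) * ∏ i, L e (ν i) (μ i)
  have hCd : ∀ ν, DifferentiableAt ℝ (fun e => C e ν) 0 := fun ν => by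
    refine DifferentiableAt.mul ?_ ?_
    · exact K.ds.differentiableAt.rpow_const (Or.inl (K.sp 0).ne')
    · exact DifferentiableAt.fun_finset_prod fun i _ => (K.dL _ _).differentiableAt
  have hC0 : ∀ ν, C 0 ν = if ν = μ then 1 else 0 := fun ν => by
    show s 0 ^ (4 - d) * ∏ i, L 0 (ν i) (μ i) = _
    rw [K.s0, K.L0, Real.one_rpow, one_mul, g1_one]
  refine ⟨fun ν => deriv (fun e => C e ν) 0, fun f hf v => ?_⟩
  obtain ⟨F, rfl⟩ := exists_fl hf
  have hfld : ∀ ν, Q.fld (Φ ν) := fun ν => Q.bose_fld _ (hΦ.1 ν)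
  have h1 := comm_gen h K hX hfld (hfld μ) (C := C) (C' := fun ν => deriv (fun e => C e ν) 0)
    (fun ν => (hCd ν).hasDerivAt) F v (fun e => by
      rw [hΦ.2 μ _ _ _ _ v (K.sp e) (K.lor e) (isTest_fl F)]
      refine Finset.sum_congr rfl fun ν _ => ?_
      rw [fl_sim (s e) (K.sp e) (K.lor e)]
      rfl)
  have s1 : ∀ u : (Fin l → Ix) → D, ∑ ν, (C 0 ν : ℂ) • u ν = u μ := fun u => by
    simp only [hC0]
    rw [Finset.sum_eq_single μ]
    · simp
    · intro k _ hk
      simp [hk]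
    · intro h; exact absurd (Finset.mem_univ _) h
  rw [← fl_vfS hX]
  rw [Finset.sum_add_distrib, s1, s1, H746.fld_smul (hfld μ) (isTest_fl F)] at h1
  have h2 := congrArg (fun u => (-Complex.I) • u) h1
  simp only [smul_add, smul_smul] at h2
  have e2 : -Complex.I * Complex.I = 1 := by rw [neg_mul, Complex.I_mul_I, neg_neg]
  simp only [e2, one_smul] at h2
  rw [h2]
  simp only [smul_add, smul_smul, neg_mul, neg_smul, add_assoc]
  abel

/-- **The generators act locally on the tensor fields.** -/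
theorem gl_ten (R : H15.Rep Q A) {l : ℕ} {d : ℝ} {Φ : (Fin l → Ix) → GF.Fld D}
    (hΦ : IsTen Q l d Φ) (μ : Fin l → Ix) : LocA Q A (Φ μ) := by
  intro r Y f W X X' v hY hf hc hW hX
  obtain ⟨C', hC'⟩ := A_ten R hΦ hY μ
  rw [hC' f hf (X v), hC' f hf v]
  have e : ∀ (x y : D), x + y - x = y := fun x y => by abel
  rw [e, e]
  have h1 : ∀ ν v, Φ ν f (X v) = X (Φ ν f v) := fun ν v => bose_al (hΦ.1 ν) hf hW hX v
  have h2 : ∀ v, Φ μ (H746.vf Y f) (X v) = X (Φ μ (H746.vf Y f) v) := fun v =>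
    bose_al (hΦ.1 μ) (H746.isTest_vf hY hf) (fun x hx => hW x (f1_tsup hx)) hX v
  simp only [h1, h2, hX.map_smul, hX.map_add, f1_sum hX]

/-- the commutators of the generators with the tensor fields are local -/
theorem gl_ten' (R : H15.Rep Q A) {l : ℕ} {d : ℝ} {Φ : (Fin l → Ix) → GF.Fld D}
    (hΦ : IsTen Q l d Φ) (μ : Fin l → Ix) : GenLoc Q A (Φ μ) := by
  intro r Y hY f hf W hW X X' hX v
  obtain ⟨C', hC'⟩ := A_ten R hΦ hY μ
  have h1 : ∀ ν v, Φ ν f (X v) = X (Φ ν f v) := fun ν v => bose_al (hΦ.1 ν) hf hW hX v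
  have h2 : ∀ v, Φ μ (H746.vf Y f) (X v) = X (Φ μ (H746.vf Y f) v) := fun v =>
    bose_al (hΦ.1 μ) (H746.isTest_vf hY hf) (fun x hx => hW x (f1_tsup hx)) hX v
  rw [hC' f hf (X v), hC' f hf v, add_sub_cancel_left, add_sub_cancel_left]
  simp only [h1, h2, hX.map_smul, hX.map_add, f1_sum hX]

end Vale.Agent.P352.NF

end
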