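import Vale.Agent.P352.NF.MainA

/-!
# The charge vanishes if the tensor fields generate the theory
-/

set_option linter.all false

noncomputable section

open MeasureTheory SchwartzMap Filter Topology Set
open scoped SchwartzMap ContDiff ComplexConjugate

namespace Vale.Agent.P352.NF

open GF (Ix V Fn Fld bas eta o bar)
open H755 H496 H15 H121 H246 H846

variable {D : Type*} [NormedAddCommGroup D] [InnerProductSpace ℂ D]
variable {Q : GF.Theory D} {T : Ix → Ix → GF.Fld D} {J : Ix → GF.Fld D}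
  {A : (V → V) → D → D} {K : V → D → D}

/-- the charge commutes with the tensor fields on which the generators act locally -/
lemma kc_comm_ten (hT : Q.IsStress T) (hm : Mom Q T K) {a : V} {C : D → D}
    (k : H731.KC Q A a (K a) C) {l : ℕ} {d : ℝ} {Φ : (Fin l → Ix) → GF.Fld D}
    (hΦ : IsTen Q l d Φ) (μ : Fin l → Ix) (hL : LocA Q A (Φ μ)) {f : Fn} (hf : GF.IsTest f)
    (v : D) : C (Φ μ f v) = Φ μ f (C v) := by
  obtain ⟨b, hb, hab⟩ := H755.exists_dual k.nul
  obtain ⟨B, hB, hBB⟩ := Q.adj (Φ μ) (Q.bose_fld _ (hΦ.1 μ))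
  have hadj : ∀ f v w, GF.IsTest f → inner ℂ (B f v) w = inner ℂ v (Φ μ (bar f) w) := by
    intro f v w hf
    have h1 := hBB (bar f) w v (isTest_bar hf)
    rw [bar_bar] at h1
    rw [← inner_conj_symm, ← h1, inner_conj_symm]
  have htra : ∀ (u : ℝ) v, Q.U 1 GF.one (u • b) (K a (Q.U 1 GF.one (-(u • b)) v)) =
      K a v + A (XX a (u • b)) v - ((2 * u : ℝ) : ℂ) • C v := by
    intro u v
    have h : Q.U 1 GF.one (u • b) (K a (Q.U 1 GF.one (-(u • b)) v)) = K a v +
      A (XX a (u • b)) v - ((2 * GF.mdot a (u • b) : ℝ) : ℂ) • C v := k.tra (u • b) v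
    rw [H755.md_smul, hab, mul_one] at h
    exact h
  refine ext_inner_left ℂ fun w => ?_
  have h2 := c_loc k.nul hb hab hT k.rep hm htra k.cs hB (hΦ.1 μ) hadj hL (kc_vac k)
    (fun f hf _ => kc_ten k hΦ μ hf) (isTest_bar hf) w
  rw [← k.cs, ← inner_conj_symm, hBB f v _ hf, ← h2, ← k.cs, ← hBB f _ w hf, inner_conj_symm]

/-- **The charge vanishes**, if the tensor fields of real dimension generate the theory. -/
theorem kc_zero (hT : Q.IsStress T) (hm : Mom Q T K) (hg : TGen Q)
    (hL : ∀ (l : ℕ) (d : ℝ) (Φ : (Fin l → Ix) → GF.Fld D), IsTen Q l d Φ → ∀ μ,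
      LocA Q A (Φ μ)) {a : V} {C : D → D} (k : H731.KC Q A a (K a) C) (v : D) : C v = 0 := by
  let S : Submodule ℂ D :=
    { carrier := {v | C v = 0}
      add_mem' := fun {x y} hx hy => by
        show C (x + y) = 0
        have hx' : C x = 0 := hx
        have hy' : C y = 0 := hy
        rw [sy_add k.cs, hx', hy', add_zero]
      zero_mem' := sy_zero k.cs
      smul_mem' := fun c x hx => by
        show C (c • x) = 0
        have hx' : C x = 0 := hx
        rw [sy_smul k.cs, hx', smul_zero] }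
  have hd : Dense (S : Set D) := by
    refine hg S (kc_vac k) fun l d Φ μ f v hΦ hf hv => ?_
    show C (Φ μ f v) = 0
    have hv' : C v = 0 := hv
    rw [kc_comm_ten hT hm k hΦ μ (hL l d Φ hΦ μ) hf, hv']
    have hm := Q.bose_fld _ (hΦ.1 μ)
    obtain ⟨F, rfl⟩ := exists_fl hf
    have := Vale.Agent.P352.fld_smul hm F 0 0
    simpa using this
  refine hd.eq_zero_of_inner_left ℂ fun u hu => ?_
  have hu' : C u = 0 := hu
  rw [k.cs, hu', inner_zero_right]

/-- **Special conformal generators**, if the tensor fields of real dimension generate the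
theory. -/
theorem confGen_kc (hT : Q.IsStress T) (h : NullMom Q T A K) (hg : TGen Q)
    (hL : ∀ (l : ℕ) (d : ℝ) (Φ : (Fin l → Ix) → GF.Fld D), IsTen Q l d Φ → ∀ μ,
      LocA Q A (Φ μ))
    (k : ∀ a b, IsNull a → IsNull b → GF.mdot a b = 1 →
      H731.KC Q A a (K a) (Cop Q A K a b)) : ConfGen Q A K where
  toRep := h.toRep
  symm a v w ha := nm_symm hT h ha v w
  cov s L r a b v hs hr hL ha hb hab := nm_cov hT h v hs hr hL ha hb hab
  tra a x v ha := by
    obtain ⟨b, hb, hab⟩ := H755.exists_dual ha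
    have h1 : Q.U 1 GF.one x (K a (Q.U 1 GF.one (-x) v)) = K a v + A (XX a x) v -
      ((2 * GF.mdot a x : ℝ) : ℂ) • Cop Q A K a b v := (k a b ha hb hab).tra x v
    rw [kc_zero hT h.mom hg hL (k a b ha hb hab) v, smul_zero, sub_zero] at h1
    exact h1

end Vale.Agent.P352.NF

end
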