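import Vale.Agent.P352.NF.F4b
import Vale.Agent.P352.NF.F5
import Vale.Agent.P352.NF.G1
import Vale.Agent.P352.NF.G2

/-!
# Conformal invariance from the second moments of the stress tensor on null planes
-/

set_option linter.all false

noncomputable section

open MeasureTheory Filter Topology

namespace Vale.Agent.P352.NF

open GF (Ix V Fn Fld bas eta o bar)
open H755 H496 H15 H121 H246 H846

variable {D : Type*} [NormedAddCommGroup D] [InnerProductSpace ℂ D]
variable {Q : GF.Theory D} {T : Ix → Ix → GF.Fld D} {J : Ix → GF.Fld D}
  {A : (V → V) → D → D} {K : V → D → D}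

/-- The second moments define neutral charges. -/
theorem kc_all (hT : Q.IsStress T) (hJ : IsVirial Q T J) (h : NullMom Q T A K) {a b : V}
    (ha : IsNull a) (hb : IsNull b) (hab : GF.mdot a b = 1) :
    H731.KC Q A a (K a) (Cop Q A K a b) :=
  kc_of hT h ha hb hab fun u t v => sd_zero hT hJ h ha hb hab u t v

/-- **Conformal invariance** from the second moments. -/
theorem conf (hT : Q.IsStress T) (hJ : IsVirial Q T J) (h : NullMom Q T A K) :
    N86.ConfInv Q T :=
  conf_kc hT hJ h fun a b ha hb hab => kc_all hT hJ h ha hb hab

/-- **Special conformal generators** from the second moments, if the tensor fields generate. -/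
theorem confGen (hT : Q.IsStress T) (hJ : IsVirial Q T J) (h : NullMom Q T A K) (hg : TGen Q) :
    ConfGen Q A K :=
  confGen_kc hT h hg (fun l d Φ hΦ μ => gl_ten h.toRep hΦ μ)
    fun a b ha hb hab => kc_all hT hJ h ha hb hab

end Vale.Agent.P352.NF

end
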