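import Vale.Agent.P352.H246.CopLoc
import Vale.Agent.P352.H846.Al

/-!
# The deviation charge is local: it commutes with the stress tensor and the virial current

`C` is the charge defined by `U(u b) K_a U(-u b) = K_a + A(XX a (u b)) - 2 u C`. If it annihilates
the vectors `φ(f)Ω` of a field `φ` on which the generators of the similitudes act locally, it
commutes with `φ`. Only the second moments `Mom` are used, on two null planes above the support
of `f`.
-/

set_option linter.all false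

noncomputable section

open MeasureTheory SchwartzMap Filter Topology Set
open scoped SchwartzMap ContDiff ComplexConjugate

namespace Vale.Agent.P352.NF

open GF (Ix V Fn Fld bas eta o bar)
open H755 H496 H15 H121 H246

variable {D : Type*} [NormedAddCommGroup D] [InnerProductSpace ℂ D]
variable {Q : GF.Theory D} {T : Ix → Ix → GF.Fld D} {J : Ix → GF.Fld D}
  {A : (V → V) → D → D} {K : V → D → D}

/-! ## linear functions on an interval -/

lemma f4_lin {c0 c1 : ℂ} {α β : ℝ} (hαβ : α < β)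
    (hψ : ∀ ψ : ℝ → ℝ, Tst ψ → tsupport ψ ⊆ Ioo α β →
      ∫ u : ℝ, (ψ u : ℂ) * (c0 + u * c1) = 0) : c1 = 0 := by
  have hc : Continuous fun u : ℝ => c0 + u * c1 := by fun_prop
  have h1 : ∀ᵐ u ∂(volume : Measure ℝ), u ∈ Ioo α β → c0 + u * c1 = 0 := by
    refine isOpen_Ioo.ae_eq_zero_of_integral_contDiff_smul_eq_zero
      (hc.locallyIntegrable.locallyIntegrableOn _) fun g hg hgc hgW => ?_
    have h2 := hψ g ⟨hg, hgc⟩ hgW
    simpa only [Complex.real_smul] using h2
  have h2 : (fun u : ℝ => c0 + u * c1) =ᵐ[volume.restrict (Ioo α β)] fun _ => 0 := by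
    rw [Filter.EventuallyEq, ae_restrict_iff' isOpen_Ioo.measurableSet]
    exact h1
  have h3 := Measure.eqOn_open_of_ae_eq h2 isOpen_Ioo hc.continuousOn continuousOn_const
  set m : ℝ := (α + β) / 2 with hm
  set d : ℝ := (β - α) / 4 with hd
  have hd0 : 0 < d := by rw [hd]; linarith
  have e2 := h3 (show m ∈ Ioo α β from ⟨by rw [hm]; linarith, by rw [hm]; linarith⟩)
  have e3 := h3 (show m + d ∈ Ioo α β from ⟨by rw [hm, hd]; linarith, by rw [hm, hd]; linarith⟩)
  simp only at e2 e3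
  push_cast at e2 e3
  have hdc : (d : ℂ) ≠ 0 := by exact_mod_cast hd0.ne'
  have h4 : (d : ℂ) * c1 = 0 := by linear_combination e3 - e2
  exact (mul_eq_zero.1 h4).resolve_left hdc

/-! ## the smeared null energy density -/

/-- the second moment density of `T_aa` smeared with `p` -/
def kq (T : Ix → Ix → GF.Fld D) (a b : V) (p : V → ℝ) (v : D) : D :=
  sm T (fun m n x => eta m * a m * (eta n * a n) * H15.sq a b x * p x) v

lemma f4_tst {a b : V} {p : V → ℝ} (hp : Tst p) (m n : Ix) :
    Tst fun x => eta m * a m * (eta n * a n) * H15.sq a b x * p x :=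
  H755.tst_smul (contDiff_const.mul (H846.contDiff_sq a b)) hp

lemma f4_sup {a b : V} {p : V → ℝ} (m n : Ix) :
    tsupport (fun x => ((eta m * a m * (eta n * a n) * H15.sq a b x * p x : ℝ) : ℂ)) ⊆
      tsupport p := by
  refine closure_mono fun x hx => ?_
  simp only [Function.mem_support] at hx ⊢
  intro h
  exact hx (by rw [h]; simp)

lemma kq_add (hT : Q.IsStress T) (a b : V) {p q : V → ℝ} (hp : Tst p) (hq : Tst q) (v : D) :
    kq T a b (fun x => p x + q x) v = kq T a b p v + kq T a b q v := by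
  unfold kq sm
  rw [← Finset.sum_add_distrib]
  refine Finset.sum_congr rfl fun m _ => ?_
  rw [← Finset.sum_add_distrib]
  refine Finset.sum_congr rfl fun n _ => ?_
  have h3 := Q.lin (T m n) (fun x => ((eta m * a m * (eta n * a n) * H15.sq a b x * p x : ℝ) : ℂ))
    (fun x => ((eta m * a m * (eta n * a n) * H15.sq a b x * q x : ℝ) : ℂ)) 1 v
    (Q.bose_fld _ (hT.bose m n)) (f4_tst hp m n).isTest (f4_tst hq m n).isTest
  rw [one_smul] at h3
  rw [← h3]
  refine congrArg (fun f => T m n f v) (funext fun x => ?_)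
  push_cast
  ring

lemma kq_al (hT : Q.IsStress T) (a b : V) {p : V → ℝ} (hp : Tst p) {W : Set V}
    (hW : ∀ x ∈ tsupport p, ∀ y ∈ W, GF.mdot (x - y) (x - y) < 0) {X X' : D → D}
    (hX : Al Q W X X') (v : D) : kq T a b p (X v) = X (kq T a b p v) := by
  unfold kq sm
  simp only [Fin.sum_univ_four]
  simp only [hX.map_add]
  have h : ∀ m n, T m n (fun x => ((eta m * a m * (eta n * a n) * H15.sq a b x * p x : ℝ) : ℂ))
      (X v) = X (T m n (fun x => ((eta m * a m * (eta n * a n) * H15.sq a b x * p x : ℝ) : ℂ))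
        v) := fun m n =>
    bose_al (hT.bose m n) (f4_tst hp m n).isTest (fun x hx => hW x (f4_sup m n hx)) hX v
  simp only [h]

lemma kq_fld (hT : Q.IsStress T) (a b : V) {p : V → ℝ} (hp : Tst p) {φ : GF.Fld D}
    (hφ : Q.fld φ) {f : Fn} (hf : GF.IsTest f)
    (hW : ∀ x ∈ tsupport p, ∀ y ∈ tsupport f, GF.mdot (x - y) (x - y) < 0) (v : D) :
    kq T a b p (φ f v) = φ f (kq T a b p v) := by
  obtain ⟨F, rfl⟩ := exists_fl hf
  unfold kq sm
  simp only [Fin.sum_univ_four]
  simp only [fld_add hφ]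
  have h : ∀ m n, T m n (fun x => ((eta m * a m * (eta n * a n) * H15.sq a b x * p x : ℝ) : ℂ))
      (φ (fl F) v) = φ (fl F) (T m n (fun x => ((eta m * a m * (eta n * a n) *
        H15.sq a b x * p x : ℝ) : ℂ)) v) := fun m n =>
    Q.loc (T m n) φ _ (fl F) v (hT.bose m n) hφ (f4_tst hp m n).isTest hf
      fun x hx y hy => hW x (f4_sup m n hx) y hy
  simp only [h]

/-- commutation at finite `R` -/
lemma kcomm_R (hT : Q.IsStress T) {a b : V} {p p1 p2 : V → ℝ} (hp1 : Tst p1) (hp2 : Tst p2)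
    (hp : p = fun x => p1 x + p2 x) {φ : GF.Fld D} (hφ : Q.bose φ) {f : Fn} (hf : GF.IsTest f)
    {W : Set V}
    (h1 : ∀ x ∈ tsupport p1, ∀ y ∈ tsupport f, GF.mdot (x - y) (x - y) < 0)
    (h2 : ∀ x ∈ tsupport p2, ∀ y ∈ W, GF.mdot (x - y) (x - y) < 0)
    (h3 : ∀ x ∈ tsupport f, ∀ y ∈ W, GF.mdot (x - y) (x - y) < 0)
    {X X' : D → D} (hX : Al Q W X X') (v : D) :
    kq T a b p (φ f (X v)) - φ f (kq T a b p (X v)) =
      X (kq T a b p (φ f v) - φ f (kq T a b p v)) := by
  have hφ' := Q.bose_fld _ hφ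
  have hadd : ∀ u w, φ f (u + w) = φ f u + φ f w := by
    obtain ⟨F, rfl⟩ := exists_fl hf
    exact fun u w => fld_add hφ' _ _ _
  have key : ∀ v, kq T a b p (φ f v) - φ f (kq T a b p v) =
      kq T a b p2 (φ f v) - φ f (kq T a b p2 v) := by
    intro v
    rw [hp, kq_add hT a b hp1 hp2, kq_add hT a b hp1 hp2, hadd, kq_fld hT a b hp1 hφ' hf h1]
    abel
  have hsub : ∀ u w, X (u - w) = X u - X w := by
    intro u w
    have := hX.map_add (u - w) w
    rw [sub_add_cancel] at this
    rw [this, add_sub_cancel_right]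
  rw [key, key, bose_al hφ hf h3 hX, kq_al hT a b hp2 h2 hX, kq_al hT a b hp2 h2 hX,
    bose_al hφ hf h3 hX, hsub]

/-! ## the generators of the similitudes act locally -/

/-- the generators of the similitudes act on `φ` by local fields -/
def LocA (Q : GF.Theory D) (A : (V → V) → D → D) (φ : GF.Fld D) : Prop :=
  ∀ (r : ℝ) (Y : V → V) (f : Fn) (W : Set V) (X X' : D → D) (v : D), IsSim r Y → GF.IsTest f →
    HasCompactSupport f → (∀ x ∈ tsupport f, ∀ y ∈ W, GF.mdot (x - y) (x - y) < 0) →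
    Al Q W X X' → A Y (φ f (X v)) - φ f (A Y (X v)) = X (A Y (φ f v) - φ f (A Y v))

lemma f4_vf {Y : V → V} {r : ℝ} (hY : IsSim r Y) {f : Fn} (hf : GF.IsTest f)
    (hc : HasCompactSupport f) : tsupport (H746.vf Y f) ⊆ tsupport f := by
  have h0 : In (tsupport f) f := ⟨hf, hc, subset_rfl⟩
  have h1 : In (tsupport f) (H746.vf Y f) := by
    unfold H746.vf
    refine H846.in_sum fun n => ?_
    refine H846.in_mul (H846.in_pd h0 n) ?_
    exact Complex.ofRealCLM.contDiff.comp (contDiff_sim hY n)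
  exact h1.2.2

lemma f4_sum {X X' : D → D} {W : Set V} (hX : Al Q W X X') (g : Ix → D) :
    X (∑ m, g m) = ∑ m, X (g m) := by
  simp only [Fin.sum_univ_four, hX.map_add]

theorem locA_T (hT : Q.IsStress T) (R : Rep Q A) (m n : Ix) : LocA Q A (T m n) := by
  intro r Y f W X X' v hY hf hc hW hX
  obtain ⟨c, w, hw, hY'⟩ := id hY
  rw [H746.A_T R hT hw hY' hf m n (X v), H746.A_T R hT hw hY' hf m n v]
  have e : ∀ (x y : D), x + y - x = y := fun x y => by abel
  rw [e, e]
  have h1 : ∀ k l v, T k l f (X v) = X (T k l f v) := fun k l v => bose_al (hT.bose k l) hf hW hX v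
  have h2 : ∀ v, T m n (H746.vf Y f) (X v) = X (T m n (H746.vf Y f) v) := fun v =>
    bose_al (hT.bose m n) (H746.isTest_vf hY hf) (fun x hx => hW x (f4_vf hY hf hc hx)) hX v
  simp only [h1, h2, hX.map_smul, hX.map_add, f4_sum hX]

theorem locA_J (hJ : IsVirial Q T J) (R : Rep Q A) (m : Ix) : LocA Q A (J m) := by
  intro r Y f W X X' v hY hf hc hW hX
  obtain ⟨c, w, hw, hY'⟩ := id hY
  rw [H746.A_J R hJ hw hY' hf m (X v), H746.A_J R hJ hw hY' hf m v]
  have e : ∀ (x y : D), x + y - x = y := fun x y => by abel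
  rw [e, e]
  have h1 : ∀ k v, J k f (X v) = X (J k f v) := fun k v => bose_al (hJ.bose k) hf hW hX v
  have h2 : ∀ v, J m (H746.vf Y f) (X v) = X (J m (H746.vf Y f) v) := fun v =>
    bose_al (hJ.bose m) (H746.isTest_vf hY hf) (fun x hx => hW x (f4_vf hY hf hc hx)) hX v
  simp only [h1, h2, hX.map_smul, hX.map_add, f4_sum hX]

/-! ## the charge -/

section

variable {a b : V} {C : D → D} (ha : IsNull a) (hb : IsNull b) (hab : GF.mdot a b = 1)
include ha hb hab

/-- the commutator of the charge with a bosonic field commutes with the algebra of a wedge -/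
lemma c_comm (hT : Q.IsStress T) (R : Rep Q A) (hm : Mom Q T K)
    (htra : ∀ (u : ℝ) v, Q.U 1 GF.one (u • b) (K a (Q.U 1 GF.one (-(u • b)) v)) =
      K a v + A (XX a (u • b)) v - ((2 * u : ℝ) : ℂ) • C v)
    {φ φ' : GF.Fld D} (hφ : Q.bose φ) (hφ' : Q.fld φ')
    (hadj : ∀ f v w, GF.IsTest f → inner ℂ (φ f v) w = inner ℂ v (φ' (bar f) w))
    (hL : LocA Q A φ) {f : Fn} (hf : GF.IsTest f) (hc : HasCompactSupport f)
    (hv : C Q.vac = 0) (h0 : C (φ f Q.vac) = 0) : ∃ M M' : ℝ, ∀ X X',
      Al Q {y | M < GF.mdot a y ∧ GF.mdot b y < M'} X X' →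
      C (φ f (X Q.vac)) = φ f (C (X Q.vac)) := by
  -- bounds on the support
  obtain ⟨A0, hA0⟩ : ∃ A0, ∀ z ∈ tsupport f, GF.mdot a z ≤ A0 := by
    have h1 : IsCompact ((fun z : V => GF.mdot a z) '' tsupport f) :=
      IsCompact.image hc (H846.contDiff_mdot a).continuous
    obtain ⟨c, hc⟩ := h1.bddAbove
    exact ⟨c, fun z hz => hc ⟨z, hz, rfl⟩⟩
  obtain ⟨B0, hB0⟩ : ∃ B0, ∀ z ∈ tsupport f, -B0 ≤ GF.mdot b z := by
    have h1 : IsCompact ((fun z : V => GF.mdot b z) '' tsupport f) :=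
      IsCompact.image hc (H846.contDiff_mdot b).continuous
    obtain ⟨c, hc⟩ := h1.bddBelow
    exact ⟨-c, fun z hz => by rw [neg_neg]; exact hc ⟨z, hz, rfl⟩⟩
  refine ⟨A0 + 4, -B0 - 4, fun X X' hX => ?_⟩
  obtain ⟨κ, hκ, hκ1⟩ := exists_kp
  have hsepW : ∀ x ∈ tsupport f, ∀ y ∈ {y : V | A0 + 4 < GF.mdot a y ∧ GF.mdot b y < -B0 - 4},
      GF.mdot (x - y) (x - y) < 0 := fun x hx y hy =>
    sep_mp ha hb hab (by linarith [hA0 x hx, hy.1]) (by linarith [hB0 x hx, hy.2])
  have e : ∀ u z, inner ℂ u (φ f z) = inner ℂ (φ' (bar f) u) z := by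
    intro u z
    rw [← inner_conj_symm, hadj f z u hf, inner_conj_symm]
  refine ext_inner_left ℂ fun w => ?_
  -- the commutators of `K` and `C`, applied to the vectors
  set cmt : (D → D) → ℂ := fun O => inner ℂ w (O (φ f (X Q.vac))) -
    inner ℂ (φ' (bar f) w) (O (X Q.vac)) - inner ℂ (X' w) (O (φ f Q.vac)) +
      inner ℂ (φ' (bar f) (X' w)) (O Q.vac) with hcmt
  have hA : ∀ r Y, IsSim r Y → cmt (A Y) = 0 := by
    intro r Y hY
    have k := hL r Y f _ X X' Q.vac hY hf hc hsepW hX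
    have k2 := congrArg (fun z => inner ℂ w z) k
    simp only [inner_sub_right] at k2
    rw [← hX.adj', inner_sub_right, e, e] at k2
    simp only [hcmt]
    linear_combination k2
  have key : (-2 : ℂ) * cmt C = 0 := by
    refine f4_lin (c0 := cmt (K a)) (α := A0 + 1) (β := A0 + 3) (by linarith) fun G hG hGs => ?_
    have hAd : Adm a b κ G := ⟨ha, hb, hab, hκ, hκ1, hG⟩
    set p : ℝ → V → ℝ := fun R => ctf a b κ 0 G R with hp
    have hpt : ∀ R, 1 ≤ R → Tst (p R) := fun R hR => H755.ctf_tst hAd 0 hR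
    have hps : ∀ R x, p R x ≠ 0 → A0 + 1 ≤ GF.mdot a x ∧ GF.mdot a x ≤ A0 + 3 := by
      intro R x hx
      have h1 : G (GF.mdot a x) ≠ 0 := fun h => hx (by simp only [hp, ctf, h, mul_zero])
      have h2 := hGs (subset_tsupport _ h1)
      exact ⟨h2.1.le, h2.2.le⟩
    have hca := (H846.contDiff_mdot a).continuous
    have hcb := (H846.contDiff_mdot b).continuous
    set p1 : ℝ → V → ℝ := fun R x => H746.chi (GF.mdot b x + B0 + 2) * p R x with hp1
    set p2 : ℝ → V → ℝ := fun R x => (1 - H746.chi (GF.mdot b x + B0 + 2)) * p R x with hp2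
    have hchi : ContDiff ℝ ∞ fun x : V => H746.chi (GF.mdot b x + B0 + 2) :=
      H746.chi_smooth.comp (((H846.contDiff_mdot b).add contDiff_const).add contDiff_const)
    have hp1t : ∀ R, 1 ≤ R → Tst (p1 R) := fun R hR => H755.tst_smul hchi (hpt R hR)
    have hp2t : ∀ R, 1 ≤ R → Tst (p2 R) := fun R hR =>
      H755.tst_smul (contDiff_const.sub hchi) (hpt R hR)
    have hsum : ∀ R, p R = fun x => p1 R x + p2 R x := by
      intro R
      funext x
      simp only [hp1, hp2]
      ring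
    have s1 : ∀ R, ∀ x ∈ tsupport (p1 R), A0 + 1 ≤ GF.mdot a x ∧ GF.mdot b x ≤ -B0 - 1 := by
      intro R x hx
      have hcl : IsClosed {x : V | A0 + 1 ≤ GF.mdot a x ∧ GF.mdot b x ≤ -B0 - 1} :=
        (isClosed_le continuous_const hca).inter (isClosed_le hcb continuous_const)
      refine closure_minimal (fun z hz => ?_) hcl hx
      have hz' : p1 R z ≠ 0 := hz
      have h1 : p R z ≠ 0 := fun h => hz' (by simp only [hp1, h, mul_zero])
      have h2 : H746.chi (GF.mdot b z + B0 + 2) ≠ 0 :=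
        fun h => hz' (by simp only [hp1, h, zero_mul])
      refine ⟨(hps R z h1).1, ?_⟩
      by_contra hle
      push Not at hle
      exact h2 (H746.chi_ge (by linarith))
    have s2 : ∀ R, ∀ x ∈ tsupport (p2 R), GF.mdot a x ≤ A0 + 3 ∧ -B0 - 3 ≤ GF.mdot b x := by
      intro R x hx
      have hcl : IsClosed {x : V | GF.mdot a x ≤ A0 + 3 ∧ -B0 - 3 ≤ GF.mdot b x} :=
        (isClosed_le hca continuous_const).inter (isClosed_le continuous_const hcb)
      refine closure_minimal (fun z hz => ?_) hcl hx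
      have hz' : p2 R z ≠ 0 := hz
      have h1 : p R z ≠ 0 := fun h => hz' (by simp only [hp2, h, mul_zero])
      have h2 : 1 - H746.chi (GF.mdot b z + B0 + 2) ≠ 0 :=
        fun h => hz' (by simp only [hp2, h, zero_mul])
      refine ⟨(hps R z h1).2, ?_⟩
      by_contra hle
      push Not at hle
      exact h2 (by rw [H746.chi_le (by linarith), sub_self])
    -- the identity at finite `R`
    have hR : ∀ R, 1 ≤ R → cmt (kq T a b (p R)) = 0 := by
      intro R hR
      have k := kcomm_R hT (a := a) (b := b) (hp1t R hR) (hp2t R hR) (hsum R) hφ hf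
        (W := {y | A0 + 4 < GF.mdot a y ∧ GF.mdot b y < -B0 - 4})
        (fun x hx y hy => sep_pm ha hb hab (by linarith [(s1 R x hx).1, hA0 y hy])
          (by linarith [(s1 R x hx).2, hB0 y hy]))
        (fun x hx y hy => sep_mp ha hb hab (by linarith [(s2 R x hx).1, hy.1])
          (by linarith [(s2 R x hx).2, hy.2]))
        hsepW hX Q.vac
      have k2 := congrArg (fun z => inner ℂ w z) k
      simp only [inner_sub_right] at k2
      rw [← hX.adj', inner_sub_right, e, e] at k2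
      simp only [hcmt]
      linear_combination k2
    -- the limits
    have lm : ∀ v z, Tendsto (fun R => inner ℂ z (kq T a b (p R) v)) atTop
        (𝓝 (∫ u, (G u : ℂ) * inner ℂ z (K a v + A (XX a (u • b)) v -
          ((2 * u : ℝ) : ℂ) • C v))) := by
      intro v z
      have l := hm a b κ 0 G v z hAd
      simp only [htra] at l
      exact l
    have hcont : ∀ v z, Continuous fun u : ℝ => inner ℂ z (K a v + A (XX a (u • b)) v -
        ((2 * u : ℝ) : ℂ) • C v) := by
      intro v z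
      simp only [A_XXb R hb hab, inner_sub_right, inner_add_right, inner_smul_right]
      fun_prop
    have hint : ∀ v z, Integrable fun u : ℝ => (G u : ℂ) * inner ℂ z (K a v +
        A (XX a (u • b)) v - ((2 * u : ℝ) : ℂ) • C v) := fun v z =>
      H755.tst_intR hG (hcont v z)
    have l5 := (((lm (φ f (X Q.vac)) w).sub (lm (X Q.vac) (φ' (bar f) w))).sub
      (lm (φ f Q.vac) (X' w))).add (lm Q.vac (φ' (bar f) (X' w)))
    have l6 : Tendsto (fun _ : ℝ => (0 : ℂ)) atTop (𝓝 0) := tendsto_const_nhds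
    have l7 := tendsto_nhds_unique l5 (l6.congr' (by
      filter_upwards [eventually_ge_atTop (1:ℝ)] with R hR1
      exact (hR R hR1).symm))
    rw [← H846.int_four (hint _ _) (hint _ _) (hint _ _) (hint _ _)] at l7
    rw [← l7]
    refine integral_congr_ae (Eventually.of_forall fun u => ?_)
    have hAu := hA _ _ (XX_sim a (u • b))
    simp only [hcmt] at hAu
    simp only [hcmt, inner_sub_right, inner_add_right, inner_smul_right]
    push_cast
    linear_combination -(G u : ℂ) * hAu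
  have k1 : cmt C = 0 := (mul_eq_zero.1 key).resolve_left (by norm_num)
  simp only [hcmt, h0, hv, inner_zero_right, sub_zero, add_zero] at k1
  rw [e]
  exact sub_eq_zero.1 k1

/-- locality of the charge, test functions with compact support -/
lemma c_loc_cs (hT : Q.IsStress T) (R : Rep Q A) (hm : Mom Q T K)
    (htra : ∀ (u : ℝ) v, Q.U 1 GF.one (u • b) (K a (Q.U 1 GF.one (-(u • b)) v)) =
      K a v + A (XX a (u • b)) v - ((2 * u : ℝ) : ℂ) • C v)
    (hsym : ∀ v w, inner ℂ (C v) w = inner ℂ v (C w))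
    {φ φ' : GF.Fld D} (hφ : Q.fld φ) (hφ' : Q.bose φ')
    (hadj : ∀ f v w, GF.IsTest f → inner ℂ (φ f v) w = inner ℂ v (φ' (bar f) w))
    (hL : LocA Q A φ') (hv : C Q.vac = 0)
    (h0 : ∀ f, GF.IsTest f → HasCompactSupport f → C (φ' f Q.vac) = 0)
    {f : Fn} (hf : GF.IsTest f) (hc : HasCompactSupport f) (v : D) :
    C (φ f v) = φ f (C v) := by
  have hcb : HasCompactSupport (bar f) := by
    rw [HasCompactSupport, tsupport_bar]; exact hc
  obtain ⟨M, M', hM⟩ := c_comm ha hb hab hT R hm htra hφ' hφ (adj_symm hadj) hL (isTest_bar hf)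
    hcb hv (h0 _ (isTest_bar hf) hcb)
  have hba : GF.mdot b a = 1 := by rw [H755.md_comm]; exact hab
  have hW : Big (MW {y : V | M < GF.mdot a y ∧ GF.mdot b y < M'}) := by
    refine big_two (c := b - a) one_pos one_pos ?_ ?_
    · rw [H755.md_sub, hab, ha.1, sub_zero]
    · rw [H755.md_sub, hba, hb.1, zero_sub]
  rw [← sub_eq_zero]
  refine dens_eq (Q := Q) ha hb hab hW fun X X' hX => ?_
  have e : ∀ u z, inner ℂ u (φ f z) = inner ℂ (φ' (bar f) u) z := by
    intro u z
    rw [← inner_conj_symm, hadj f z u hf, inner_conj_symm]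
  rw [inner_sub_right, ← hsym, e, ← hM X X' hX, hsym, ← e, sub_self]

/-- **Locality of the charge.** If the charge annihilates the vectors `φ' f Ω`, it commutes with
the adjoint `φ` of the bosonic field `φ'`. -/
theorem c_loc (hT : Q.IsStress T) (R : Rep Q A) (hm : Mom Q T K)
    (htra : ∀ (u : ℝ) v, Q.U 1 GF.one (u • b) (K a (Q.U 1 GF.one (-(u • b)) v)) =
      K a v + A (XX a (u • b)) v - ((2 * u : ℝ) : ℂ) • C v)
    (hsym : ∀ v w, inner ℂ (C v) w = inner ℂ v (C w))
    {φ φ' : GF.Fld D} (hφ : Q.fld φ) (hφ' : Q.bose φ')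
    (hadj : ∀ f v w, GF.IsTest f → inner ℂ (φ f v) w = inner ℂ v (φ' (bar f) w))
    (hL : LocA Q A φ') (hv : C Q.vac = 0)
    (h0 : ∀ f, GF.IsTest f → HasCompactSupport f → C (φ' f Q.vac) = 0)
    {f : Fn} (hf : GF.IsTest f) (v : D) : C (φ f v) = φ f (C v) := by
  obtain ⟨F, rfl⟩ := exists_fl hf
  obtain ⟨g, hg, hlim⟩ := exists_compact_seq F
  refine ext_inner_left ℂ fun w => ?_
  rw [← hsym]
  have c1 : Continuous fun F : 𝓢(Mink, ℂ) => inner ℂ (C w) (φ (fl F) v) :=
    continuous_const.inner (fld_cont hφ v)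
  have c2 : Continuous fun F : 𝓢(Mink, ℂ) => inner ℂ w (φ (fl F) (C v)) :=
    continuous_const.inner (fld_cont hφ _)
  have l1 := (c1.tendsto F).comp hlim
  have l2 := (c2.tendsto F).comp hlim
  refine tendsto_nhds_unique l1 (l2.congr fun n => ?_)
  simp only [Function.comp_apply]
  rw [hsym, c_loc_cs ha hb hab hT R hm htra hsym hφ hφ' hadj hL hv h0 (isTest_fl _)
    (hasCompactSupport_fl (hg n))]

end

/-! ## the two theorems -/

section

variable {C : V → D → D}

/-- the translation law of the second moments with a charge `C` -/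
def TraC (Q : GF.Theory D) (A : (V → V) → D → D) (K C : V → D → D) : Prop :=
  ∀ a x v, IsNull a → Q.U 1 GF.one x (K a (Q.U 1 GF.one (-x) v)) = K a v + A (XX a x) v -
    ((2 * GF.mdot a x : ℝ) : ℂ) • C a v

lemma f4_tra (htra : TraC Q A K C) {a b : V} (ha : IsNull a) (hab : GF.mdot a b = 1) (u : ℝ)
    (v : D) : Q.U 1 GF.one (u • b) (K a (Q.U 1 GF.one (-(u • b)) v)) =
      K a v + A (XX a (u • b)) v - ((2 * u : ℝ) : ℂ) • C a v := by
  have h := htra a (u • b) v ha
  rw [H755.md_smul, hab, mul_one] at h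
  exact h

/-- the charge commutes with the stress tensor -/
theorem c_T (hT : Q.IsStress T) (R : Rep Q A) (hm : Mom Q T K) (htra : TraC Q A K C)
    (hsym : ∀ a v w, IsNull a → inner ℂ (C a v) w = inner ℂ v (C a w))
    (hv : ∀ a, IsNull a → C a Q.vac = 0)
    (h0 : ∀ a m n f, IsNull a → GF.IsTest f → HasCompactSupport f → C a (T m n f Q.vac) = 0) :
    ∀ a m n f v, IsNull a → GF.IsTest f → C a (T m n f v) = T m n f (C a v) := by
  intro a m n f v ha hf
  obtain ⟨b, hb, hab⟩ := exists_dual ha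
  exact c_loc ha hb hab hT R hm (f4_tra htra ha hab) (fun v w => hsym a v w ha)
    (Q.bose_fld _ (hT.bose m n)) (hT.bose m n) (hT.herm m n) (locA_T hT R m n) (hv a ha)
    (fun f hf hc => h0 a m n f ha hf hc) hf v

/-- the charge commutes with the virial current -/
theorem c_J (hT : Q.IsStress T) (hJ : IsVirial Q T J) (R : Rep Q A) (hm : Mom Q T K)
    (htra : TraC Q A K C)
    (hsym : ∀ a v w, IsNull a → inner ℂ (C a v) w = inner ℂ v (C a w))
    (hv : ∀ a, IsNull a → C a Q.vac = 0)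
    (h0 : ∀ a m f, IsNull a → GF.IsTest f → HasCompactSupport f → C a (J m f Q.vac) = 0) :
    ∀ a m f v, IsNull a → GF.IsTest f → C a (J m f v) = J m f (C a v) := by
  intro a m f v ha hf
  obtain ⟨b, hb, hab⟩ := exists_dual ha
  exact c_loc ha hb hab hT R hm (f4_tra htra ha hab) (fun v w => hsym a v w ha)
    (Q.bose_fld _ (hJ.bose m)) (hJ.bose m) (hJ.herm m) (locA_J hJ R m) (hv a ha)
    (fun f hf hc => h0 a m f ha hf hc) hf v

end

end Vale.Agent.P352.NF

end
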