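import Vale.Agent.P352.NF.Ks
import Vale.Agent.P352.NF.F1a
import Vale.Agent.P352.H246.SdLoc

/-!
# P352 NF: locality of combinations of second moments and generators
-/

set_option linter.all false

noncomputable section

open MeasureTheory SchwartzMap Filter Topology Set
open scoped SchwartzMap ContDiff ComplexConjugate

namespace Vale.Agent.P352.NF

open GF (Ix V Fn Fld bas eta o bar pd)
open H246 H496 H755 H15
open H746 (vf isTest_vf A_T A_J A_symm A_vac)

variable {D : Type*} [NormedAddCommGroup D] [InnerProductSpace ℂ D]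
variable {Q : GF.Theory D} {T : Ix → Ix → GF.Fld D} {J : Ix → GF.Fld D}
  {A : (V → V) → D → D} {K : V → D → D}

lemma f1_al_zero {W : Set V} {X X' : D → D} (hX : Al Q W X X') : X 0 = 0 := by
  have := hX.map_smul 0 0
  simpa using this

lemma f1_al_sum {W : Set V} {X X' : D → D} (hX : Al Q W X X') {ι : Type*} (s : Finset ι)
    (g : ι → D) : X (∑ i ∈ s, g i) = ∑ i ∈ s, X (g i) := by
  classical
  induction s using Finset.induction_on with
  | empty => simpa using f1_al_zero hX
  | insert i s hi ih => rw [Finset.sum_insert hi, Finset.sum_insert hi, hX.map_add, ih]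

/-! ### The component `T_aa` at finite `R` -/

/-- the component `T_aa` smeared with a real function -/
def tq (T : Ix → Ix → GF.Fld D) (a : V) (p : V → ℝ) (v : D) : D :=
  sm T (fun m n x => eta m * a m * (eta n * a n) * p x) v

lemma tq_add (hT : Q.IsStress T) (a : V) {p q : V → ℝ} (hp : Tst p) (hq : Tst q) (v : D) :
    tq T a (fun x => p x + q x) v = tq T a p v + tq T a q v := by
  unfold tq sm
  rw [← Finset.sum_add_distrib]
  refine Finset.sum_congr rfl fun m _ => ?_
  rw [← Finset.sum_add_distrib]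
  refine Finset.sum_congr rfl fun n _ => ?_
  have h3 := Q.lin (T m n) (fun x => ((eta m * a m * (eta n * a n) * p x : ℝ) : ℂ))
    (fun x => ((eta m * a m * (eta n * a n) * q x : ℝ) : ℂ)) 1 v
    (Q.bose_fld _ (hT.bose m n)) (tst_c hp _).isTest (tst_c hq _).isTest
  rw [one_smul] at h3
  rw [← h3]
  refine congrArg (fun f => T m n f v) (funext fun x => ?_)
  push_cast
  ring

lemma tq_al (hT : Q.IsStress T) (a : V) {p : V → ℝ} (hp : Tst p) {W : Set V}
    (hW : ∀ x ∈ tsupport p, ∀ y ∈ W, GF.mdot (x - y) (x - y) < 0) {X X' : D → D}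
    (hX : Al Q W X X') (v : D) : tq T a p (X v) = X (tq T a p v) := by
  unfold tq sm
  rw [f1_al_sum hX]
  refine Finset.sum_congr rfl fun m _ => ?_
  rw [f1_al_sum hX]
  refine Finset.sum_congr rfl fun n _ => ?_
  exact bose_al (hT.bose m n) (tst_c hp _).isTest (fun x hx => hW x (tsup_c hx)) hX v

lemma f1_fld_zero {φ : GF.Fld D} (hφ : Q.fld φ) {f : Fn} (hf : GF.IsTest f) : φ f 0 = 0 := by
  obtain ⟨F, rfl⟩ := exists_fl hf
  have := Vale.Agent.P352.fld_smul hφ F 0 0
  simpa using this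

lemma f1_fld_sum {φ : GF.Fld D} (hφ : Q.fld φ) {f : Fn} (hf : GF.IsTest f) {ι : Type*}
    (s : Finset ι) (g : ι → D) : φ f (∑ i ∈ s, g i) = ∑ i ∈ s, φ f (g i) := by
  classical
  induction s using Finset.induction_on with
  | empty => simpa using f1_fld_zero hφ hf
  | insert i s hi ih =>
    obtain ⟨F, rfl⟩ := exists_fl hf
    rw [Finset.sum_insert hi, Finset.sum_insert hi, fld_add hφ, ih]

lemma tq_fld (hT : Q.IsStress T) (a : V) {p : V → ℝ} (hp : Tst p) {φ : GF.Fld D}
    (hφ : Q.fld φ) {f : Fn} (hf : GF.IsTest f)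
    (hW : ∀ x ∈ tsupport p, ∀ y ∈ tsupport f, GF.mdot (x - y) (x - y) < 0) (v : D) :
    tq T a p (φ f v) = φ f (tq T a p v) := by
  unfold tq sm
  rw [f1_fld_sum hφ hf]
  refine Finset.sum_congr rfl fun m _ => ?_
  rw [f1_fld_sum hφ hf]
  refine Finset.sum_congr rfl fun n _ => ?_
  exact Q.loc (T m n) φ _ f v (hT.bose m n) hφ (tst_c hp _).isTest hf
    fun x hx y hy => hW x (tsup_c hx) y hy

/-- commutation at finite `R` -/
lemma tq_comm_R (hT : Q.IsStress T) {a : V} {p p1 p2 : V → ℝ} (hp1 : Tst p1) (hp2 : Tst p2)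
    (hp : p = fun x => p1 x + p2 x) {φ : GF.Fld D} (hφ : Q.bose φ) {f : Fn} (hf : GF.IsTest f)
    {W : Set V}
    (h1 : ∀ x ∈ tsupport p1, ∀ y ∈ tsupport f, GF.mdot (x - y) (x - y) < 0)
    (h2 : ∀ x ∈ tsupport p2, ∀ y ∈ W, GF.mdot (x - y) (x - y) < 0)
    (h3 : ∀ x ∈ tsupport f, ∀ y ∈ W, GF.mdot (x - y) (x - y) < 0)
    {X X' : D → D} (hX : Al Q W X X') (v : D) :
    tq T a p (φ f (X v)) - φ f (tq T a p (X v)) = X (tq T a p (φ f v) - φ f (tq T a p v)) := by
  have hφ' := Q.bose_fld _ hφ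
  have hadd : ∀ u w, φ f (u + w) = φ f u + φ f w := by
    obtain ⟨F, rfl⟩ := exists_fl hf
    exact fun u w => fld_add hφ' _ _ _
  have key : ∀ v, tq T a p (φ f v) - φ f (tq T a p v) =
      tq T a p2 (φ f v) - φ f (tq T a p2 v) := by
    intro v
    rw [hp, tq_add hT a hp1 hp2, tq_add hT a hp1 hp2, hadd, tq_fld hT a hp1 hφ' hf h1]
    abel
  have hsub : ∀ u w, X (u - w) = X u - X w := by
    intro u w
    have := hX.map_add (u - w) w
    rw [sub_add_cancel] at this
    rw [this, add_sub_cancel_right]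
  rw [key, key, bose_al hφ hf h3 hX, tq_al hT a hp2 h2 hX, tq_al hT a hp2 h2 hX,
    bose_al hφ hf h3 hX, hsub]

/-- a continuous function whose integrals against the test functions with support in an interval
vanish is zero there -/
lemma f1_zero_on {g : ℝ → ℂ} (hg : Continuous g) {α β : ℝ}
    (H : ∀ ψ : ℝ → ℝ, Tst ψ → (∀ s, ψ s ≠ 0 → α < s ∧ s < β) → ∫ u, (ψ u : ℂ) * g u = 0)
    {s : ℝ} (h1 : α < s) (h2 : s < β) : g s = 0 := by
  have hae : ∀ᵐ x ∂(volume : Measure ℝ), x ∈ Ioo α β → g x = 0 := by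
    refine isOpen_Ioo.ae_eq_zero_of_integral_contDiff_smul_eq_zero
      (hg.locallyIntegrable.locallyIntegrableOn _) fun ψ hψ hc hs => ?_
    have h3 := H ψ ⟨hψ, hc⟩ fun s hs' => hs (subset_tsupport _ hs')
    rw [← h3]
    refine integral_congr_ae (Eventually.of_forall fun u => ?_)
    simp [Complex.real_smul]
  have hae2 : g =ᵐ[volume.restrict (Ioo α β)] fun _ => 0 := by
    rw [Filter.EventuallyEq, ae_restrict_iff' measurableSet_Ioo]
    exact hae
  exact Measure.eqOn_open_of_ae_eq hae2 isOpen_Ioo hg.continuousOn continuousOn_const ⟨h1, h2⟩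

/-- the second moment of the null plane at `s` -/
def kp (Q : GF.Theory D) (K : V → D → D) (a b : V) (s : ℝ) (v : D) : D :=
  Q.U 1 GF.one (s • b) (K a (Q.U 1 GF.one (-(s • b)) v))

section

variable {a b : V} (ha : IsNull a) (hb : IsNull b) (hab : GF.mdot a b = 1)
include ha hb hab

/-- the commutator of the second moment of a null plane above the support of `f` with `φ(f)`
commutes with the algebra of a wedge above the plane -/
lemma kp_comm (hT : Q.IsStress T) (h : NullMom Q T A K) {φ φ' : GF.Fld D} (hφ : Q.bose φ)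
    (hadj : ∀ f v w, GF.IsTest f → inner ℂ (φ f v) w = inner ℂ v (φ' (bar f) w))
    {f : Fn} (hf : GF.IsTest f) {A0 N B0 : ℝ} (hA0 : ∀ z ∈ tsupport f, GF.mdot a z ≤ A0)
    (hB0 : ∀ z ∈ tsupport f, -B0 ≤ GF.mdot b z) {X X' : D → D}
    (hX : Al Q {y | N < GF.mdot a y ∧ GF.mdot b y < -B0 - 4} X X') (w : D) {s : ℝ}
    (hs1 : A0 < s) (hs2 : s < N) :
    inner ℂ w (kp Q K a b s (φ f (X Q.vac))) - inner ℂ (φ' (bar f) w) (kp Q K a b s (X Q.vac)) =
      inner ℂ (X' w) (kp Q K a b s (φ f Q.vac)) -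
        inner ℂ (φ' (bar f) (X' w)) (kp Q K a b s Q.vac) := by
  have hca := (H846.contDiff_mdot a).continuous
  have hcb := (H846.contDiff_mdot b).continuous
  obtain ⟨κ, hκ, hκ1⟩ := exists_kp
  have e : ∀ w z, inner ℂ w (φ f z) = inner ℂ (φ' (bar f) w) z := by
    intro w z
    rw [← inner_conj_symm, hadj f z w hf, inner_conj_symm]
  have hcont : ∀ v w, Continuous fun s => inner ℂ w (kp Q K a b s v) := fun v w =>
    h.cont a b v w ha hb
  set g : ℝ → ℂ := fun s => (inner ℂ w (kp Q K a b s (φ f (X Q.vac))) -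
    inner ℂ (φ' (bar f) w) (kp Q K a b s (X Q.vac))) -
      (inner ℂ (X' w) (kp Q K a b s (φ f Q.vac)) -
        inner ℂ (φ' (bar f) (X' w)) (kp Q K a b s Q.vac)) with hg
  have hgc : Continuous g := ((hcont _ _).sub (hcont _ _)).sub ((hcont _ _).sub (hcont _ _))
  have h0 : g s = 0 := by
    refine f1_zero_on hgc (α := (A0 + s) / 2) (β := (s + N) / 2) (fun G hG hGs => ?_)
      (by linarith) (by linarith)
    have hAd : Adm a b κ G := ⟨ha, hb, hab, hκ, hκ1, hG⟩
    set p : ℝ → V → ℝ := fun R x => H15.sq a b x * ctf a b κ 0 G R x with hp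
    have hpt : ∀ R, 1 ≤ R → Tst (p R) := fun R hR =>
      tst_smul (contDiff_sq a b) (H755.ctf_tst hAd 0 hR)
    have hps : ∀ R x, p R x ≠ 0 → (A0 + s) / 2 ≤ GF.mdot a x ∧ GF.mdot a x ≤ (s + N) / 2 := by
      intro R x hx
      have h1 := hGs (GF.mdot a x) fun h => hx (by simp only [hp, ctf, h, mul_zero])
      exact ⟨h1.1.le, h1.2.le⟩
    set p1 : ℝ → V → ℝ := fun R x => H746.chi (GF.mdot b x + B0 + 2) * p R x with hp1
    set p2 : ℝ → V → ℝ := fun R x => (1 - H746.chi (GF.mdot b x + B0 + 2)) * p R x with hp2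
    have hchi : ContDiff ℝ ∞ fun x : V => H746.chi (GF.mdot b x + B0 + 2) :=
      H746.chi_smooth.comp (((H846.contDiff_mdot b).add contDiff_const).add contDiff_const)
    have hp1t : ∀ R, 1 ≤ R → Tst (p1 R) := fun R hR => H755.tst_smul hchi (hpt R hR)
    have hp2t : ∀ R, 1 ≤ R → Tst (p2 R) := fun R hR =>
      H755.tst_smul (contDiff_const.sub hchi) (hpt R hR)
    have hsum : ∀ R, p R = fun x => p1 R x + p2 R x := by
      intro R
      funext x
      simp only [hp1, hp2]
      ring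
    have s1 : ∀ R, ∀ x ∈ tsupport (p1 R),
        (A0 + s) / 2 ≤ GF.mdot a x ∧ GF.mdot b x ≤ -B0 - 1 := by
      intro R x hx
      have hcl : IsClosed {x : V | (A0 + s) / 2 ≤ GF.mdot a x ∧ GF.mdot b x ≤ -B0 - 1} :=
        (isClosed_le continuous_const hca).inter (isClosed_le hcb continuous_const)
      refine closure_minimal (fun z hz => ?_) hcl hx
      have hz' : p1 R z ≠ 0 := hz
      have h1 : p R z ≠ 0 := fun h => hz' (by simp only [hp1, h, mul_zero])
      have h2 : H746.chi (GF.mdot b z + B0 + 2) ≠ 0 :=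
        fun h => hz' (by simp only [hp1, h, zero_mul])
      refine ⟨(hps R z h1).1, ?_⟩
      by_contra hle
      push Not at hle
      exact h2 (H746.chi_ge (by linarith))
    have s2 : ∀ R, ∀ x ∈ tsupport (p2 R), GF.mdot a x ≤ (s + N) / 2 ∧ -B0 - 3 ≤ GF.mdot b x := by
      intro R x hx
      have hcl : IsClosed {x : V | GF.mdot a x ≤ (s + N) / 2 ∧ -B0 - 3 ≤ GF.mdot b x} :=
        (isClosed_le hca continuous_const).inter (isClosed_le continuous_const hcb)
      refine closure_minimal (fun z hz => ?_) hcl hx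
      have hz' : p2 R z ≠ 0 := hz
      have h1 : p R z ≠ 0 := fun h => hz' (by simp only [hp2, h, mul_zero])
      have h2 : 1 - H746.chi (GF.mdot b z + B0 + 2) ≠ 0 :=
        fun h => hz' (by simp only [hp2, h, zero_mul])
      refine ⟨(hps R z h1).2, ?_⟩
      by_contra hle
      push Not at hle
      exact h2 (by rw [H746.chi_le (by linarith), sub_self])
    have hR : ∀ R, 1 ≤ R → inner ℂ w (tq T a (p R) (φ f (X Q.vac))) -
        inner ℂ (φ' (bar f) w) (tq T a (p R) (X Q.vac)) =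
        inner ℂ (X' w) (tq T a (p R) (φ f Q.vac)) -
          inner ℂ (φ' (bar f) (X' w)) (tq T a (p R) Q.vac) := by
      intro R hR
      have k := tq_comm_R hT (a := a) (hp1t R hR) (hp2t R hR) (hsum R) hφ hf
        (W := {y | N < GF.mdot a y ∧ GF.mdot b y < -B0 - 4})
        (fun x hx y hy => sep_pm ha hb hab (by linarith [(s1 R x hx).1, hA0 y hy])
          (by linarith [(s1 R x hx).2, hB0 y hy]))
        (fun x hx y hy => sep_mp ha hb hab (by linarith [(s2 R x hx).1, hy.1])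
          (by linarith [(s2 R x hx).2, hy.2]))
        (fun x hx y hy => sep_mp ha hb hab (by linarith [hA0 x hx, hy.1])
          (by linarith [hB0 x hx, hy.2])) hX Q.vac
      have k2 := congrArg (fun z => inner ℂ w z) k
      simp only [inner_sub_right] at k2
      rw [← hX.adj', inner_sub_right] at k2
      rw [e, e (X' w)] at k2
      exact k2
    have lim : ∀ v z : D, Tendsto (fun R => inner ℂ z (tq T a (p R) v)) atTop
        (𝓝 (∫ u, (G u : ℂ) * inner ℂ z (kp Q K a b u v))) := by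
      intro v z
      have h1 := h.mom a b κ 0 G v z hAd
      refine h1.congr fun R => ?_
      unfold tq
      congr 2
      funext m n x
      simp only [hp]
      ring
    have l1 := lim (φ f (X Q.vac)) w
    have l2 := lim (X Q.vac) (φ' (bar f) w)
    have l3 := lim (φ f Q.vac) (X' w)
    have l4 := lim Q.vac (φ' (bar f) (X' w))
    have l6 := (l1.sub l2).congr' (f₂ := fun R => inner ℂ (X' w) (tq T a (p R) (φ f Q.vac)) -
        inner ℂ (φ' (bar f) (X' w)) (tq T a (p R) Q.vac)) (by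
      filter_upwards [eventually_ge_atTop (1:ℝ)] with R hR1
      exact hR R hR1)
    have l7 := tendsto_nhds_unique l6 (l3.sub l4)
    have i1 := H746.tst_intg hG (hcont (φ f (X Q.vac)) w)
    have i2 := H746.tst_intg hG (hcont (X Q.vac) (φ' (bar f) w))
    have i3 := H746.tst_intg hG (hcont (φ f Q.vac) (X' w))
    have i4 := H746.tst_intg hG (hcont Q.vac (φ' (bar f) (X' w)))
    have e5 : (fun u => (G u : ℂ) * g u) = fun u =>
        ((G u : ℂ) * inner ℂ w (kp Q K a b u (φ f (X Q.vac))) -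
          (G u : ℂ) * inner ℂ (φ' (bar f) w) (kp Q K a b u (X Q.vac))) -
        ((G u : ℂ) * inner ℂ (X' w) (kp Q K a b u (φ f Q.vac)) -
          (G u : ℂ) * inner ℂ (φ' (bar f) (X' w)) (kp Q K a b u Q.vac)) := by
      funext u
      simp only [hg]
      ring
    have i12 : Integrable fun u => (G u : ℂ) * inner ℂ w (kp Q K a b u (φ f (X Q.vac))) -
          (G u : ℂ) * inner ℂ (φ' (bar f) w) (kp Q K a b u (X Q.vac)) := i1.sub i2
    have i34 : Integrable fun u => (G u : ℂ) * inner ℂ (X' w) (kp Q K a b u (φ f Q.vac)) -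
          (G u : ℂ) * inner ℂ (φ' (bar f) (X' w)) (kp Q K a b u Q.vac) := i3.sub i4
    rw [e5, integral_sub i12 i34, integral_sub i1 i2, integral_sub i3 i4, l7, sub_self]
  exact sub_eq_zero.1 h0

/-- operators that are combinations of second moments of planes above the support of `f` and of a
generator, and that annihilate `Ω` and `φ(f)Ω`, commute with the algebra of a wedge -/
lemma loc_B1 (hT : Q.IsStress T) (h : NullMom Q T A K) {φ : GF.Fld D} (hφ : Q.bose φ)
    (hherm : ∀ f v w, GF.IsTest f → inner ℂ (φ f v) w = inner ℂ v (φ (bar f) w))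
    (hG : GenLoc Q A φ) {f : Fn} (hf : GF.IsTest f) {B : D → D}
    {c u : Fin 3 → ℝ} {r : ℝ} {X : V → V} (hX : IsSim r X)
    (hB : ∀ v, B v = ∑ i, (c i : ℂ) • Q.U 1 GF.one (u i • b) (K a (Q.U 1 GF.one (-(u i • b)) v)) +
      A X v) {A0 N B0 : ℝ} (hA0 : ∀ z ∈ tsupport f, GF.mdot a z ≤ A0)
    (hB0 : ∀ z ∈ tsupport f, -B0 ≤ GF.mdot b z) (hu : ∀ i, A0 < u i) (hN : ∀ i, u i < N)
    (h0 : B Q.vac = 0) (h1 : B (φ f Q.vac) = 0) {Y Y' : D → D}
    (hY : Al Q {y | N < GF.mdot a y ∧ GF.mdot b y < -B0 - 4} Y Y') :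
    B (φ f (Y Q.vac)) = φ f (B (Y Q.vac)) := by
  have e : ∀ w z, inner ℂ w (φ f z) = inner ℂ (φ (bar f) w) z := by
    intro w z
    rw [← inner_conj_symm, hherm f z w hf, inner_conj_symm]
  have hAN : A0 < N := (hu 0).trans (hN 0)
  refine ext_inner_left ℂ fun w => ?_
  have hin : ∀ z v, inner ℂ z (B v) = ∑ i, (c i : ℂ) * inner ℂ z (kp Q K a b (u i) v) +
      inner ℂ z (A X v) := by
    intro z v
    rw [hB, inner_add_right, inner_sum]
    simp only [inner_smul_right]
    rfl
  -- the part of the second moments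
  have k1 : ∀ i, inner ℂ w (kp Q K a b (u i) (φ f (Y Q.vac))) -
      inner ℂ (φ (bar f) w) (kp Q K a b (u i) (Y Q.vac)) =
      inner ℂ (Y' w) (kp Q K a b (u i) (φ f Q.vac)) -
        inner ℂ (φ (bar f) (Y' w)) (kp Q K a b (u i) Q.vac) := fun i =>
    kp_comm ha hb hab hT h hφ hherm hf hA0 hB0 hY w (hu i) (hN i)
  -- the part of the generator
  have k2 : inner ℂ w (A X (φ f (Y Q.vac))) - inner ℂ (φ (bar f) w) (A X (Y Q.vac)) =
      inner ℂ (Y' w) (A X (φ f Q.vac)) - inner ℂ (φ (bar f) (Y' w)) (A X Q.vac) := by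
    have h3 := hG r X hX f hf _ (fun x hx y hy => sep_mp ha hb hab
      (by linarith [hA0 x hx, hy.1]) (by linarith [hB0 x hx, hy.2])) Y Y' hY Q.vac
    have h4 := congrArg (fun z => inner ℂ w z) h3
    simp only [inner_sub_right] at h4
    rw [← hY.adj', inner_sub_right, e, e (Y' w)] at h4
    exact h4
  have h5 : inner ℂ w (B (φ f (Y Q.vac))) - inner ℂ (φ (bar f) w) (B (Y Q.vac)) =
      inner ℂ (Y' w) (B (φ f Q.vac)) - inner ℂ (φ (bar f) (Y' w)) (B Q.vac) := by
    rw [hin, hin, hin, hin]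
    have h6 : ∀ (p q : Fin 3 → ℂ) (x y : ℂ), (∑ i, (c i : ℂ) * p i + x) -
        (∑ i, (c i : ℂ) * q i + y) = ∑ i, (c i : ℂ) * (p i - q i) + (x - y) := by
      intro p q x y
      simp only [mul_sub, Finset.sum_sub_distrib]
      ring
    rw [h6, h6, k2]
    simp only [k1]
  rw [h0, h1, inner_zero_right, inner_zero_right, sub_zero] at h5
  rw [e]
  exact sub_eq_zero.1 h5

theorem loc_B2 (hT : Q.IsStress T) (h : NullMom Q T A K) {φ : GF.Fld D} (hφ : Q.bose φ)
    (hherm : ∀ f v w, GF.IsTest f → inner ℂ (φ f v) w = inner ℂ v (φ (bar f) w))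
    (hG : GenLoc Q A φ) {f : Fn} (hf : GF.IsTest f) (hc : HasCompactSupport f) {B : D → D}
    {c u : Fin 3 → ℝ} {r : ℝ} {X : V → V} (hX : IsSim r X)
    (hB : ∀ v, B v = ∑ i, (c i : ℂ) • Q.U 1 GF.one (u i • b) (K a (Q.U 1 GF.one (-(u i • b)) v)) +
      A X v)
    (hu : ∀ i, ∀ y ∈ tsupport f, GF.mdot a y < u i)
    (hsym : ∀ v w, inner ℂ (B v) w = inner ℂ v (B w)) (h0 : B Q.vac = 0)
    (h1 : B (φ f Q.vac) = 0) (h2 : B (φ (bar f) Q.vac) = 0) (v : D) :
    B (φ f v) = φ f (B v) := by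
  have hca := (H846.contDiff_mdot a).continuous
  have hcb := (H846.contDiff_mdot b).continuous
  -- bounds on the support
  obtain ⟨A0, hA0, hA1⟩ : ∃ A0, (∀ z ∈ tsupport f, GF.mdot a z ≤ A0) ∧ ∀ i, A0 < u i := by
    by_cases hne : (tsupport f).Nonempty
    · obtain ⟨z, hz, hmax⟩ := IsCompact.exists_isMaxOn (s := tsupport f) hc hne
        (f := fun z : V => GF.mdot a z) hca.continuousOn
      exact ⟨GF.mdot a z, fun y hy => hmax hy, fun i => hu i z hz⟩
    · refine ⟨min (u 0) (min (u 1) (u 2)) - 1, fun z hz => (hne ⟨z, hz⟩).elim, fun i => ?_⟩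
      have h3 : min (u 0) (min (u 1) (u 2)) ≤ u i := by
        fin_cases i
        · exact min_le_left _ _
        · exact (min_le_right _ _).trans (min_le_left _ _)
        · exact (min_le_right _ _).trans (min_le_right _ _)
      linarith
  obtain ⟨B0, hB0⟩ : ∃ B0, ∀ z ∈ tsupport f, -B0 ≤ GF.mdot b z := by
    have h3 : IsCompact ((fun z : V => GF.mdot b z) '' tsupport f) := IsCompact.image hc hcb
    obtain ⟨c, hc⟩ := h3.bddBelow
    exact ⟨-c, fun z hz => by rw [neg_neg]; exact hc ⟨z, hz, rfl⟩⟩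
  obtain ⟨N, hN⟩ : ∃ N, ∀ i, u i < N := by
    refine ⟨max (u 0) (max (u 1) (u 2)) + 1, fun i => ?_⟩
    have h3 : u i ≤ max (u 0) (max (u 1) (u 2)) := by
      fin_cases i
      · exact le_max_left _ _
      · exact (le_max_left _ _).trans (le_max_right _ _)
      · exact (le_max_right _ _).trans (le_max_right _ _)
    linarith
  have hts : tsupport (bar f) = tsupport f := tsupport_bar f
  have hba : GF.mdot b a = 1 := by rw [md_comm]; exact hab
  have hW : Big (MW {y : V | N < GF.mdot a y ∧ GF.mdot b y < -B0 - 4}) := by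
    refine big_two (c := b - a) one_pos one_pos ?_ ?_
    · rw [md_sub, hab, ha.1, sub_zero]
    · rw [md_sub, hba, hb.1, zero_sub]
  rw [← sub_eq_zero]
  refine dens_eq (Q := Q) ha hb hab hW fun Y Y' hY => ?_
  have e : ∀ u z, inner ℂ u (φ f z) = inner ℂ (φ (bar f) u) z := by
    intro u z
    rw [← inner_conj_symm, hherm f z u hf, inner_conj_symm]
  have h3 := loc_B1 ha hb hab hT h hφ hherm hG (isTest_bar hf) hX hB
    (by rw [hts]; exact hA0) (by rw [hts]; exact hB0) hA1 hN h0 h2 hY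
  rw [inner_sub_right, ← hsym, e, ← h3, hsym, ← e, sub_self]

end

/-- operators that are combinations of second moments of planes above the support of `f` and of a
generator, and that annihilate `Ω` and `φ(f)Ω`, commute with `φ(f)` -/
theorem loc_B (hT : Q.IsStress T) (h : NullMom Q T A K) {a b : V} (ha : IsNull a) (hb : IsNull b)
    (hab : GF.mdot a b = 1) {φ : GF.Fld D} (hφ : Q.bose φ)
    (hherm : ∀ f v w, GF.IsTest f → inner ℂ (φ f v) w = inner ℂ v (φ (bar f) w))
    (hG : GenLoc Q A φ) {f : Fn} (hf : GF.IsTest f) (hc : HasCompactSupport f) {B : D → D}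
    {c u : Fin 3 → ℝ} {r : ℝ} {X : V → V} (hX : IsSim r X)
    (hB : ∀ v, B v = ∑ i, (c i : ℂ) • Q.U 1 GF.one (u i • b) (K a (Q.U 1 GF.one (-(u i • b)) v)) +
      A X v)
    (hu : ∀ i, ∀ y ∈ tsupport f, GF.mdot a y < u i)
    (hsym : ∀ v w, inner ℂ (B v) w = inner ℂ v (B w)) (h0 : B Q.vac = 0)
    (h1 : B (φ f Q.vac) = 0) (h2 : B (φ (bar f) Q.vac) = 0) (v : D) :
    B (φ f v) = φ f (B v) :=
  loc_B2 ha hb hab hT h hφ hherm hG hf hc hX hB hu hsym h0 h1 h2 v

end Vale.Agent.P352.NF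

end
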