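import Vale.Agent.P352.NC.Defs
import Vale.Agent.P352.NF.Ks

/-!
# P352: the second derivative of the deviation on the vectors created by the stress tensor
-/

set_option linter.all false

noncomputable section

open MeasureTheory Filter Topology SchwartzMap Complex
open scoped SchwartzMap ComplexConjugate ContDiff LineDeriv

namespace Vale.Agent.P352.NF

open GF (Ix V Fn Fld Theory Sch IsLor bas eta o sim pd tr ev bar)
open H246 H496 H755 H15 H846 H246R H746 N86 NC
open UniformSpace (Completion)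

variable {D : Type*} [NormedAddCommGroup D] [InnerProductSpace ℂ D]
variable {Q : GF.Theory D} {T : Ix → Ix → GF.Fld D} {J : Ix → GF.Fld D}
variable {A : (V → V) → D → D} {K : V → D → D}

section

variable (R : H15.Rep Q A)
include R

lemma e12_add {r : ℝ} {X : V → V} (hX : IsSim r X) (v w : D) : A X (v + w) = A X v + A X w :=
  Adj.add (A_symm R hX) v w

lemma e12_smul {r : ℝ} {X : V → V} (hX : IsSim r X) (c : ℂ) (v : D) : A X (c • v) = c • A X v :=
  Adj.smul (A_symm R hX) c v

/-- the derivative of the translations -/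
lemma e12_der (b : V) (v : D) (u : ℝ) :
    HasDerivAt (fun u : ℝ => Q.U 1 GF.one (-(u • b)) v)
      (-(I • A (fun _ => b) (Q.U 1 GF.one (-(u • b)) v))) u := by
  have h0 : HasDerivAt (fun e : ℝ => Q.U 1 GF.one (e • b) (Q.U 1 GF.one (-(u • b)) v))
      (I • A (fun _ => b) (Q.U 1 GF.one (-(u • b)) v)) 0 := by
    refine R.der (fun _ => 1) (fun _ => GF.one) (fun e => e • b) (fun _ => b) _ rfl rfl
      (zero_smul _ _) (fun _ => ⟨one_pos, isLor_one⟩) fun n x => ?_
    have e : (fun e : ℝ => sim 1 GF.one (e • b) x n) = fun e : ℝ => e * b n + x n := by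
      funext e
      simp [sim, GF.one, bas]
    rw [e]
    simpa using ((hasDerivAt_id (0 : ℝ)).mul_const (b n)).add_const (x n)
  have h1 : HasDerivAt (fun u' : ℝ => u - u') (-1) u := by
    simpa using (hasDerivAt_id u).const_sub u
  have h2 : HasDerivAt (fun e : ℝ => Q.U 1 GF.one (e • b) (Q.U 1 GF.one (-(u • b)) v))
      (I • A (fun _ => b) (Q.U 1 GF.one (-(u • b)) v)) (u - u) := by rwa [sub_self]
  have h3 := h2.scomp u h1
  have e : ((fun e : ℝ => Q.U 1 GF.one (e • b) (Q.U 1 GF.one (-(u • b)) v)) ∘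
      fun u' : ℝ => u - u') = fun u' : ℝ => Q.U 1 GF.one (-(u' • b)) v := by
    funext u'
    simp only [Function.comp_apply]
    rw [Uadd1]
    congr 1
    module
  rw [e, neg_one_smul] at h3
  exact h3

/-- the generator commutes with the translations -/
lemma e12_comm (b x : V) (v : D) :
    A (fun _ => b) (Q.U 1 GF.one x v) = Q.U 1 GF.one x (A (fun _ => b) v) := by
  have h := conj_const R b x (Q.U 1 GF.one x v)
  rw [Uadd1, neg_add_cancel] at h
  have h0 : Q.U 1 GF.one 0 v = v := U1_zero_all (Q := Q) v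
  rw [h0] at h
  exact h.symm

end

/-- the translations of the vectors `T^{mn}(F) Ω` -/
lemma e12_shift {B : Fld D} (hB : Q.fld B) (b : V) (u : ℝ) (F : 𝓢(Mink, ℂ)) :
    Q.U 1 GF.one (-(u • b)) (B (fl F) Q.vac) =
      B (fl (tauS (-(u • WithLp.toLp 2 b)) F)) Q.vac := by
  have h1 := U_fld hB F (-(u • (WithLp.toLp 2 b : Mink))) Q.vac
  have h3 : U1 Q (-(u • (WithLp.toLp 2 b : Mink))) (B (fl F) Q.vac) =
      B (fl (tauS (-(u • WithLp.toLp 2 b)) F)) (U1 Q (-(u • (WithLp.toLp 2 b : Mink))) Q.vac) := h1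
  rw [U1_vac] at h3
  exact h3

/-- derivative of a shifted test function under a continuous linear map -/
lemma e12_tau {E : Type*} [NormedAddCommGroup E] [NormedSpace ℂ E] (t : 𝓢(Mink, ℂ) →L[ℂ] E)
    (b : Mink) (F : 𝓢(Mink, ℂ)) (u : ℝ) :
    HasDerivAt (fun u : ℝ => t (tauS (-(u • b)) F)) (t (tauS (-(u • b)) (∂_{b} F : 𝓢(Mink, ℂ))))
      u := by
  have h0 : ∀ G : 𝓢(Mink, ℂ), HasDerivAt (fun e : ℝ => t (tauS (-(e • b)) G))
      (t (∂_{b} G : 𝓢(Mink, ℂ))) 0 := by
    intro G
    rw [hasDerivAt_iff_tendsto_slope]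
    have h1 := (t.continuous.tendsto _).comp (tendsto_shift G (-b))
    have h2 : -(∂_{-b} G : 𝓢(Mink, ℂ)) = (∂_{b} G : 𝓢(Mink, ℂ)) := by
      ext x
      rw [SchwartzMap.neg_apply]
      show -(fderiv ℝ G x (-b)) = fderiv ℝ G x b
      rw [map_neg, neg_neg]
    rw [h2] at h1
    refine h1.congr fun e => ?_
    have h3 : tauS (-((0 : ℝ) • b)) G = G := by rw [zero_smul, neg_zero, tauS_zero']
    rw [Function.comp_apply, slope_def_module, sub_zero, h3, smul_neg, map_smul, map_sub,
      ← ofReal_inv]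
    rfl
  have h1 := h0 (tauS (-(u • b)) F)
  have h2 : HasDerivAt (fun u' : ℝ => u' - u) 1 u := by
    simpa using (hasDerivAt_id u).sub_const u
  have h3 : HasDerivAt (fun e : ℝ => t (tauS (-(e • b)) (tauS (-(u • b)) F)))
      (t (∂_{b} (tauS (-(u • b)) F) : 𝓢(Mink, ℂ))) (u - u) := by rwa [sub_self]
  have h4 := HasDerivAt.scomp (h := fun u' : ℝ => u' - u) u h3 h2
  rw [one_smul, H993.ld_tauS] at h4
  refine h4.congr_of_eventuallyEq (Eventually.of_forall fun u' => ?_)
  show t (tauS (-(u' • b)) F) = t (tauS (-((u' - u) • b)) (tauS (-(u • b)) F))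
  rw [tauS_tauS]
  congr 2
  module

section

variable (hT : Q.IsStress T) (h : KS Q A K)
include hT h

/-- derivative of `K` on the translated vectors -/
lemma e12_K {a : V} (ha : IsNull a) (b : V) {B : Fld D} (hB : Q.fld B) (F : 𝓢(Mink, ℂ)) (u : ℝ) :
    HasDerivAt (fun u : ℝ => ((K a (Q.U 1 GF.one (-(u • b)) (B (fl F) Q.vac)) : D) : Completion D))
      (((-(I • K a (A (fun _ => b) (Q.U 1 GF.one (-(u • b)) (B (fl F) Q.vac)))) : D) :
        Completion D)) u ∧
    -(I • A (fun _ => b) (B (fl F) Q.vac)) =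
      B (fl (∂_{(WithLp.toLp 2 b : Mink)} F : 𝓢(Mink, ℂ))) Q.vac := by
  have hK : Adj (K a) (K a) := fun v w => ks_symm hT h ha v w
  have h2 : ∀ F : 𝓢(Mink, ℂ), -(I • A (fun _ => b) (B (fl F) Q.vac)) =
      B (fl (∂_{(WithLp.toLp 2 b : Mink)} F : 𝓢(Mink, ℂ))) Q.vac := by
    intro F
    have h3 := e12_der h.toRep b (B (fl F) Q.vac) 0
    simp only [zero_smul, neg_zero] at h3
    have h0 : Q.U 1 GF.one 0 (B (fl F) Q.vac) = B (fl F) Q.vac := U1_zero_all (Q := Q) _
    rw [h0] at h3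
    have h4 := e12_tau (fcl hB Q.vac) (WithLp.toLp 2 b) F 0
    simp only [zero_smul, neg_zero, tauS_zero'] at h4
    have h5 : (fun u : ℝ => fcl hB Q.vac (tauS (-(u • (WithLp.toLp 2 b : Mink))) F)) =
        fun u : ℝ => Q.U 1 GF.one (-(u • b)) (B (fl F) Q.vac) := by
      funext u
      rw [e12_shift hB]
      rfl
    rw [h5] at h4
    exact h3.unique h4
  refine ⟨?_, h2 F⟩
  obtain ⟨Φ, hΦ⟩ := exists_adjL (Q := Q) ⟨K a, fun v w => hK v w⟩ hB
  have h3 := e12_tau Φ (WithLp.toLp 2 b) F u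
  have h4 : (fun u : ℝ => Φ (tauS (-(u • (WithLp.toLp 2 b : Mink))) F)) =
      fun u : ℝ => ((K a (Q.U 1 GF.one (-(u • b)) (B (fl F) Q.vac)) : D) : Completion D) := by
    funext u
    rw [hΦ, e12_shift hB]
  rw [h4, hΦ, ← e12_shift hB, ← h2 F] at h3
  have h5 : Q.U 1 GF.one (-(u • b)) (-(I • A (fun _ => b) (B (fl F) Q.vac))) =
      (-I) • A (fun _ => b) (Q.U 1 GF.one (-(u • b)) (B (fl F) Q.vac)) := by
    have e : -(I • A (fun _ => b) (B (fl F) Q.vac)) = (-I) • A (fun _ => b) (B (fl F) Q.vac) :=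
      (neg_smul _ _).symm
    rw [e, U_smul one_pos isLor_one, e12_comm h.toRep]
  rw [h5, Adj.smul hK, neg_smul] at h3
  exact h3

/-- the second derivative of the matrix elements of the translated second moments -/
lemma e12_two {a : V} (ha : IsNull a) (b : V) {B : Fld D} (hB : Q.fld B) (F : 𝓢(Mink, ℂ))
    (w : D) : ∃ g' : ℝ → ℂ,
      (∀ u, HasDerivAt (fun u : ℝ => inner ℂ w (Q.U 1 GF.one (u • b)
        (K a (Q.U 1 GF.one (-(u • b)) (B (fl F) Q.vac))))) (g' u) u) ∧
      ∀ u, HasDerivAt g' (inner ℂ (Q.U 1 GF.one (-(u • b)) w)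
        ((2 : ℂ) • A (fun _ => b) (K a (A (fun _ => b) (Q.U 1 GF.one (-(u • b)) (B (fl F) Q.vac)))) -
          K a (A (fun _ => b) (A (fun _ => b) (Q.U 1 GF.one (-(u • b)) (B (fl F) Q.vac)))) -
          A (fun _ => b) (A (fun _ => b) (K a (Q.U 1 GF.one (-(u • b)) (B (fl F) Q.vac)))))) u := by
  have hK : Adj (K a) (K a) := fun v w => ks_symm hT h ha v w
  set P : D → D := A (fun _ => b) with hP
  have hPs : ∀ v w, inner ℂ (P v) w = inner ℂ v (P w) := fun v w => A_symm h.toRep (const_sim b) v w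
  set v : ℝ → D := fun u => Q.U 1 GF.one (-(u • b)) (B (fl F) Q.vac) with hv
  -- the derivatives of the vectors, in the completion
  have dw : ∀ (z : D) u, HasDerivAt (fun u : ℝ => ((Q.U 1 GF.one (-(u • b)) z : D) : Completion D))
      ((-(I • P (Q.U 1 GF.one (-(u • b)) z)) : D) : Completion D) u := by
    intro z u
    have h1 := e12_der h.toRep b z u
    exact ((Completion.toComplL (𝕜 := ℂ) (E := D)).restrictScalars ℝ).hasFDerivAt.comp_hasDerivAt
      u h1
  have dK0 : ∀ u, HasDerivAt (fun u : ℝ => ((K a (v u) : D) : Completion D))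
      ((-(I • K a (P (v u))) : D) : Completion D) u := fun u => (e12_K hT h ha b hB F u).1
  set F1 : 𝓢(Mink, ℂ) := ∂_{(WithLp.toLp 2 b : Mink)} F with hF1
  have hP1 : ∀ u, Q.U 1 GF.one (-(u • b)) (B (fl F1) Q.vac) = (-I) • P (v u) := by
    intro u
    have h1 : B (fl F1) Q.vac = (-I) • P (B (fl F) Q.vac) := by
      rw [neg_smul]
      exact (e12_K hT h ha b hB F u).2.symm
    rw [h1, U_smul one_pos isLor_one, ← e12_comm h.toRep]
  have dK1 : ∀ u, HasDerivAt (fun u : ℝ => ((K a (P (v u)) : D) : Completion D))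
      ((-(I • K a (P (P (v u)))) : D) : Completion D) u := by
    intro u
    have h1 := (e12_K hT h ha b hB F1 u).1
    have h2 : (fun u : ℝ => ((K a (Q.U 1 GF.one (-(u • b)) (B (fl F1) Q.vac)) : D) :
        Completion D)) = fun u : ℝ => (-I) • ((K a (P (v u)) : D) : Completion D) := by
      funext u
      rw [hP1, Adj.smul hK, Completion.coe_smul]
    rw [h2, hP1] at h1
    have h3 : HasDerivAt (fun u : ℝ => I • ((-I) • ((K a (P (v u)) : D) : Completion D)))
        (I • (((-(I • K a (P ((-I) • P (v u)))) : D)) : Completion D)) u := h1.const_smul I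
    have h4 : (fun u : ℝ => I • ((-I) • ((K a (P (v u)) : D) : Completion D))) =
        fun u : ℝ => ((K a (P (v u)) : D) : Completion D) := by
      funext u
      rw [smul_smul, mul_neg, I_mul_I, neg_neg, one_smul]
    have h5 : I • (((-(I • K a (P ((-I) • P (v u)))) : D)) : Completion D) =
        ((-(I • K a (P (P (v u)))) : D) : Completion D) := by
      have e1 : P ((-I) • P (v u)) = (-I) • P (P (v u)) := e12_smul h.toRep (const_sim b) _ _
      rw [e1, Adj.smul hK, ← Completion.coe_smul]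
      congr 1
      rw [smul_neg, smul_smul, smul_smul]
      have e2 : I * I * -I = I := by
        rw [I_mul_I]
        ring
      rw [e2]
    rw [h5, h4] at h3
    exact h3
  -- the matrix elements
  have e0 : ∀ u : ℝ, inner ℂ w (Q.U 1 GF.one (u • b) (K a (v u))) =
      inner ℂ ((Q.U 1 GF.one (-(u • b)) w : D) : Completion D) ((K a (v u) : D) : Completion D) := by
    intro u
    rw [Completion.inner_coe]
    have h1 := Q.U_inner 1 GF.one (u • b) (Q.U 1 GF.one (-(u • b)) w) (K a (v u)) one_pos isLor_one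
    rw [← h1, Uadd1, add_neg_cancel]
    have h0 : Q.U 1 GF.one 0 w = w := U1_zero_all (Q := Q) w
    rw [h0]
  have hPw : ∀ u : ℝ, Q.U 1 GF.one (-(u • b)) (P w) = P (Q.U 1 GF.one (-(u • b)) w) := fun u =>
    (e12_comm h.toRep b _ w).symm
  refine ⟨fun u => I * inner ℂ (P (Q.U 1 GF.one (-(u • b)) w)) (K a (v u)) -
    I * inner ℂ (Q.U 1 GF.one (-(u • b)) w) (K a (P (v u))), fun u => ?_, fun u => ?_⟩
  · have h1 := (dw w u).inner ℂ (dK0 u)
    have h2 : (fun u : ℝ => inner ℂ w (Q.U 1 GF.one (u • b) (K a (v u)))) = fun u : ℝ =>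
      inner ℂ ((Q.U 1 GF.one (-(u • b)) w : D) : Completion D) ((K a (v u) : D) : Completion D) :=
      funext e0
    rw [h2]
    refine h1.congr_deriv ?_
    simp only [Completion.inner_coe, inner_neg_left, inner_neg_right, inner_smul_left,
      inner_smul_right, conj_I]
    ring
  · have h1 := (dw (P w) u).inner ℂ (dK0 u)
    have h2 := (dw w u).inner ℂ (dK1 u)
    have h3 := (h1.const_mul I).sub (h2.const_mul I)
    have h4 : (fun u : ℝ => I * inner ℂ (P (Q.U 1 GF.one (-(u • b)) w)) (K a (v u)) -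
        I * inner ℂ (Q.U 1 GF.one (-(u • b)) w) (K a (P (v u)))) = fun u : ℝ =>
        I * inner ℂ ((Q.U 1 GF.one (-(u • b)) (P w) : D) : Completion D)
          ((K a (v u) : D) : Completion D) -
        I * inner ℂ ((Q.U 1 GF.one (-(u • b)) w : D) : Completion D)
          ((K a (P (v u)) : D) : Completion D) := by
      funext u
      rw [Completion.inner_coe, Completion.inner_coe, hPw]
    rw [h4]
    refine h3.congr_deriv ?_
    simp only [Completion.inner_coe, inner_neg_left, inner_neg_right, inner_smul_left,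
      inner_smul_right, conj_I, hPw, inner_sub_right]
    rw [hPs (P (Q.U 1 GF.one (-(u • b)) w)), hPs, hPs]
    have e5 : I * I = -1 := I_mul_I
    linear_combination ((inner ℂ (Q.U 1 GF.one (-(u • b)) w) (P (P (K a (v u)))) : ℂ) -
      2 * inner ℂ (Q.U 1 GF.one (-(u • b)) w) (P (K a (P (v u)))) +
      inner ℂ (Q.U 1 GF.one (-(u • b)) w) (K a (P (P (v u))))) * e5

omit hT h in
/-- functions with vanishing second derivative -/
lemma e12_aff {g g' : ℝ → ℂ} (h1 : ∀ u, HasDerivAt g (g' u) u) (h2 : ∀ u, HasDerivAt g' 0 u)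
    (u t : ℝ) : g (u + t) + g (u - t) = 2 * g u := by
  have h3 : ∀ x y, g' x = g' y := is_const_of_deriv_eq_zero (fun u => (h2 u).differentiableAt)
    fun u => (h2 u).deriv
  have h4 : ∀ u, HasDerivAt (fun u : ℝ => g u - (u : ℂ) * g' 0) 0 u := by
    intro u
    have h5 : HasDerivAt (fun u : ℝ => (u : ℂ) * g' 0) (1 * g' 0) u :=
      (ofRealCLM.hasDerivAt (x := u)).mul_const (g' 0)
    have h6 := (h1 u).sub h5
    rw [h3 u 0, one_mul, sub_self] at h6
    exact h6
  have h5 : ∀ x y : ℝ, g x - (x : ℂ) * g' 0 = g y - (y : ℂ) * g' 0 :=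
    is_const_of_deriv_eq_zero (fun u => (h4 u).differentiableAt) fun u => (h4 u).deriv
  have h6 := h5 (u + t) u
  have h7 := h5 (u - t) u
  push_cast at h6 h7
  linear_combination h6 + h7

theorem kh_affine {a b : V} (ha : IsNull a)
    (hb : IsNull b) (hab : GF.mdot a b = 1) {m n : Ix}
    (hz : ∀ F : 𝓢(Mink, ℂ), Xi A K a b (T m n (fl F) Q.vac) = 0) (F : 𝓢(Mink, ℂ)) (w : D)
    (u t : ℝ) : kh Q A K a b (T m n (fl F) Q.vac) w (u + t) +
      kh Q A K a b (T m n (fl F) Q.vac) w (u - t) = 2 * kh Q A K a b (T m n (fl F) Q.vac) w u := by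
  have hB : Q.fld (T m n) := Q.bose_fld _ (hT.bose m n)
  set v : D := T m n (fl F) Q.vac with hv
  obtain ⟨g', h1, h2⟩ := e12_two hT h ha b hB F w
  set c1 : ℂ := inner ℂ w (A (H755.Xw a b) v) with hc1
  set c2 : ℂ := inner ℂ w (A (fun _ => b) v) with hc2
  have hcK : (fun _ : V => cK a b) = fun z : V => (fun _ : V => b) z + (1 : ℝ) • (fun _ : V => b) z := by
    funext z n
    simp only [cK, hab, hb.1, Pi.sub_apply, Pi.add_apply, Pi.smul_apply, smul_eq_mul]
    ring
  refine e12_aff (g := kh Q A K a b v w) (g' := fun u => g' u + 2 * c1 - 4 * (u : ℂ) * c2)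
    (fun u => ?_) (fun u => ?_) u t
  · have h3 : HasDerivAt (fun u : ℝ => 2 * (u : ℂ) * c1) (2 * 1 * c1) u :=
      ((ofRealCLM.hasDerivAt (x := u)).const_mul 2).mul_const c1
    have h4 : HasDerivAt (fun u : ℝ => 2 * (u : ℂ) ^ 2 * c2) (2 * (2 * (u : ℂ)) * c2) u := by
      have h5 : HasDerivAt (fun u : ℝ => (u : ℂ) ^ 2) (2 * (u : ℂ)) u := by
        have h6 := (ofRealCLM.hasDerivAt (x := u)).mul (ofRealCLM.hasDerivAt (x := u))
        refine (h6.congr_deriv ?_).congr_of_eventuallyEq (Eventually.of_forall fun y => ?_)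
        · simp
          ring
        · simp [pow_two]
      exact (h5.const_mul 2).mul_const c2
    have h5 := ((h1 u).add h3).sub h4
    refine (h5.congr_deriv ?_).congr_of_eventuallyEq (Eventually.of_forall fun y => ?_)
    · ring
    · rfl
  · have h3 : HasDerivAt (fun u : ℝ => 4 * (u : ℂ) * c2) (4 * 1 * c2) u :=
      ((ofRealCLM.hasDerivAt (x := u)).const_mul 4).mul_const c2
    have h5 := ((h2 u).add_const (2 * c1)).sub h3
    refine h5.congr_deriv ?_
    have hsh : Q.U 1 GF.one (-(u • b)) v = T m n (fl (tauS (-(u • WithLp.toLp 2 b)) F)) Q.vac :=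
      e12_shift hB b u F
    have h6 := hz (tauS (-(u • WithLp.toLp 2 b)) F)
    rw [← hsh] at h6
    have h7 : A (fun _ => cK a b) (Q.U 1 GF.one (-(u • b)) v) =
        A (fun _ => b) (Q.U 1 GF.one (-(u • b)) v) +
          ((1 : ℝ) : ℂ) • A (fun _ => b) (Q.U 1 GF.one (-(u • b)) v) := by
      rw [hcK]
      exact h.toRep.add 0 0 1 _ _ _ (const_sim b) (const_sim b)
    have h8 : c2 = inner ℂ (Q.U 1 GF.one (-(u • b)) w)
        (A (fun _ => b) (Q.U 1 GF.one (-(u • b)) v)) := by
      rw [e12_comm h.toRep, Q.U_inner _ _ _ _ _ one_pos isLor_one]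
    rw [h8]
    unfold Xi NC.Pg at h6
    rw [h7] at h6
    have h9 := congrArg (fun z => inner ℂ (Q.U 1 GF.one (-(u • b)) w) z) h6
    simp only [inner_sub_right, inner_smul_right, inner_add_right, inner_zero_right,
      ofReal_one, one_mul] at h9 ⊢
    linear_combination h9

end

end Vale.Agent.P352.NF

end
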