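import Vale.Agent.P352.NF.F1
import Vale.Agent.P352.NF.E11
import Vale.Agent.P352.NF.E12
import Vale.Agent.P352.NC.E13a
import Vale.Agent.P352.H846.TvB

/-!
# P352 NF: the second differences commute with the stress tensor below the planes
-/

set_option linter.all false

noncomputable section

open MeasureTheory Filter Topology SchwartzMap Complex
open scoped SchwartzMap ComplexConjugate ContDiff LineDeriv

namespace Vale.Agent.P352.NF

open GF (Ix V Fn Fld Theory Sch IsLor bas eta o sim pd tr ev bar)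
open H246 H496 H755 H15 H846 H246R H746 N86 NC
open UniformSpace (Completion)

variable {D : Type*} [NormedAddCommGroup D] [InnerProductSpace ℂ D]
variable {Q : GF.Theory D} {T : Ix → Ix → GF.Fld D} {J : Ix → GF.Fld D}
variable {A : (V → V) → D → D} {K : V → D → D}

theorem xi_T (hT : Q.IsStress T) (hJ : IsVirial Q T J) (h : NullMom Q T A K) {a : V}
    (ha : IsNull a) (x : V) (g : Ix → Ix → 𝓢(Mink, ℂ)) : Xi A K a x (tvec Q T g) = 0 :=
  Xi_zero hT hJ (ks_of hT h) ha x g

theorem kh_affT (hT : Q.IsStress T) (hJ : IsVirial Q T J) (h : NullMom Q T A K) {a b : V}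
    (ha : IsNull a) (hb : IsNull b) (hab : GF.mdot a b = 1) (m n : Ix) (F : 𝓢(Mink, ℂ))
    (w : D) (u t : ℝ) : kh Q A K a b (T m n (fl F) Q.vac) w (u + t) +
      kh Q A K a b (T m n (fl F) Q.vac) w (u - t) =
      2 * kh Q A K a b (T m n (fl F) Q.vac) w u :=
  kh_affine hT (ks_of hT h) ha hb hab (fun F => by
    rw [← e13_single hT m n F]
    exact xi_T hT hJ h ha _ _) F w u t

/-- hermiticity of the deviation -/
lemma f2_conj (hT : Q.IsStress T) (h : KS Q A K) {a : V} (ha : IsNull a) (b : V)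
    (v w : D) (u : ℝ) : kh Q A K a b v w u = conj (kh Q A K a b w v u) := by
  unfold kh
  rw [map_sub, map_add, map_mul, map_mul, map_mul, map_mul, inner_conj_symm, inner_conj_symm,
    inner_conj_symm, map_pow, Complex.conj_ofReal]
  have e1 : inner ℂ (Q.U 1 GF.one (u • b) (K a (Q.U 1 GF.one (-(u • b)) w))) v =
      inner ℂ w (Q.U 1 GF.one (u • b) (K a (Q.U 1 GF.one (-(u • b)) v))) := by
    have h1 : inner ℂ (Q.U 1 GF.one (u • b) (K a (Q.U 1 GF.one (-(u • b)) w))) v =
        inner ℂ (K a (Q.U 1 GF.one (-(u • b)) w)) (Q.U 1 GF.one (-(u • b)) v) := by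
      rw [← inner_conj_symm, ← inner_U1, inner_conj_symm]
    rw [h1, ks_symm hT h ha, inner_U1]
  have e2 : inner ℂ (A (H755.Xw a b) w) v = inner ℂ w (A (H755.Xw a b) v) :=
    H746.A_symm h.toRep (Xw_sim a b) w v
  have e3 : inner ℂ (A (fun _ => b) w) v = inner ℂ w (A (fun _ => b) v) :=
    H746.A_symm h.toRep (const_sim b) w v
  rw [e1, e2, e3]
  have h2 : (starRingEnd ℂ) (2 : ℂ) = 2 := by
    have := Complex.conj_ofReal 2
    simpa using this
  rw [h2]

/-- hermiticity of the second differences -/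
lemma f2_symm (hT : Q.IsStress T) (h : KS Q A K) {a : V} (ha : IsNull a) (b : V)
    (u t : ℝ) (v w : D) : inner ℂ (Sd Q A K a b u t v) w = inner ℂ v (Sd Q A K a b u t w) := by
  rw [← inner_conj_symm, inner_Sd, inner_Sd, f2_conj hT h ha b w v, f2_conj hT h ha b w v,
    f2_conj hT h ha b w v]
  simp only [map_sub, map_add, map_mul, Complex.conj_conj]
  have h2 : (starRingEnd ℂ) (2 : ℂ) = 2 := by
    have := Complex.conj_ofReal 2
    simpa using this
  rw [h2]

/-- the second moments annihilate the vacuum -/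
lemma f2_Kvac (hT : Q.IsStress T) (h : KS Q A K) {a : V} (ha : IsNull a) : K a Q.vac = 0 := by
  have e : GF.sim 1 GF.one 0 a = (1 : ℝ) • a := by
    rw [sim_one, one_smul]
    funext n
    simp
  have h1 := ks_cov hT h Q.vac two_pos one_pos isLor_one ha ha e
  rw [Q.U_vac 2 GF.one 0 two_pos isLor_one] at h1
  have h2 : ‖K a Q.vac‖ = (1 / 2) * ‖K a Q.vac‖ := by
    have h3 := congrArg norm h1
    rw [U_nrm0 two_pos isLor_one, norm_smul, Complex.norm_real,
      Real.norm_of_nonneg (by norm_num)] at h3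
    exact h3
  have h4 : ‖K a Q.vac‖ = 0 := by linarith
  exact norm_eq_zero.1 h4

lemma f2_U0 (x : V) : Q.U 1 GF.one x 0 = 0 := by
  have := U_smul (Q := Q) one_pos isLor_one x 0 0
  simpa using this

/-- the second differences in terms of the second moments -/
lemma f2_Sd (h : H15.Rep Q A) (a b : V) (u t : ℝ) (v : D) : Sd Q A K a b u t v =
    Q.U 1 GF.one ((u + t) • b) (K a (Q.U 1 GF.one (-((u + t) • b)) v)) +
      Q.U 1 GF.one ((u - t) • b) (K a (Q.U 1 GF.one (-((u - t) • b)) v)) -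
      (2 : ℂ) • Q.U 1 GF.one (u • b) (K a (Q.U 1 GF.one (-(u • b)) v)) -
      ((4 * t ^ 2 : ℝ) : ℂ) • A (fun _ => b) v := by
  unfold Sd kv
  push_cast
  module

lemma f2_vac (hT : Q.IsStress T) (h : KS Q A K) {a : V} (ha : IsNull a) (b : V)
    (u t : ℝ) : Sd Q A K a b u t Q.vac = 0 := by
  rw [f2_Sd h.toRep]
  have e1 : ∀ x : V, Q.U 1 GF.one x Q.vac = Q.vac := fun x => Q.U_vac _ _ _ one_pos isLor_one
  rw [e1, e1, e1, f2_Kvac hT h ha, H746.A_vac h.toRep (H755.const_sim b)]
  simp only [f2_U0, smul_zero, add_zero, sub_zero]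

theorem sdT (hT : Q.IsStress T) (hJ : IsVirial Q T J) (h : NullMom Q T A K) {a b : V}
    (ha : IsNull a) (hb : IsNull b) (hab : GF.mdot a b = 1) : SdT Q T A K a b := by
  intro u t m n f hf hc hs v
  have hk := ks_of hT h
  have hcA : ∀ v, A (fun _ => (-(4 * t ^ 2)) • b) v = ((-(4 * t ^ 2) : ℝ) : ℂ) • A (fun _ => b) v := by
    intro v
    have h1 := A_lin2 h.toRep (-(4 * t ^ 2)) 0 v (const_sim b) (const_sim b)
    simp only [zero_smul, add_zero, ofReal_zero] at h1
    exact h1
  have hz : ∀ {g : Fn}, GF.IsTest g → Sd Q A K a b u t (T m n g Q.vac) = 0 := by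
    intro g hg
    obtain ⟨F, rfl⟩ := exists_fl hg
    refine ext_inner_left ℂ fun w => ?_
    rw [inner_Sd, kh_affT hT hJ h ha hb hab, sub_self, inner_zero_right]
  refine loc_B hT h ha hb hab (hT.bose m n) (fun f v w hf => hT.herm m n f v w hf) (gl_T h.toRep hT m n)
    hf hc (c := ![1, 1, -2]) (u := ![u + t, u - t, u])
    (const_sim ((-(4 * t ^ 2)) • b)) (fun v => ?_) (fun i y hy => ?_) (f2_symm hT hk ha b u t)
    (f2_vac hT hk ha b u t) (hz hf) (hz (isTest_bar hf)) v
  · rw [f2_Sd h.toRep, hcA]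
    simp only [Fin.sum_univ_three, Matrix.cons_val_zero, Matrix.cons_val_one, Matrix.cons_val_two,
      Matrix.head_cons, Matrix.tail_cons]
    push_cast
    module
  · have h1 := hs y hy
    have h2 := neg_abs_le t
    have h3 := le_abs_self t
    have h4 := abs_nonneg t
    fin_cases i
    · simp
      linarith
    · simp
      linarith
    · simp
      linarith

section

variable (hT : Q.IsStress T) (h : NullMom Q T A K) {a b : V} (ha : IsNull a)
include hT h ha

lemma f2_add (u t : ℝ) (v w : D) : Sd Q A K a b u t (v + w) =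
    Sd Q A K a b u t v + Sd Q A K a b u t w := by
  have hk := ks_of hT h
  refine ext_inner_left ℂ fun z => ?_
  rw [← f2_symm hT hk ha, inner_add_right, inner_add_right, f2_symm hT hk ha, f2_symm hT hk ha]

lemma f2_smul (u t : ℝ) (c : ℂ) (v : D) : Sd Q A K a b u t (c • v) =
    c • Sd Q A K a b u t v := by
  have hk := ks_of hT h
  refine ext_inner_left ℂ fun z => ?_
  rw [← f2_symm hT hk ha, inner_smul_right, inner_smul_right, f2_symm hT hk ha]

lemma f2_zero (u t : ℝ) : Sd Q A K a b u t 0 = 0 := by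
  have hk := ks_of hT h
  refine ext_inner_left ℂ fun z => ?_
  rw [← f2_symm hT hk ha, inner_zero_right, inner_zero_right]

lemma f2_sum (u t : ℝ) {ι : Type*} (s : Finset ι) (x : ι → D) :
    Sd Q A K a b u t (∑ i ∈ s, x i) = ∑ i ∈ s, Sd Q A K a b u t (x i) := by
  classical
  induction s using Finset.induction_on with
  | empty => simpa using f2_zero hT h ha u t
  | insert i s hi ih => rw [Finset.sum_insert hi, Finset.sum_insert hi, f2_add hT h ha, ih]

lemma f2_sm (hs : SdT Q T A K a b) {u t : ℝ} {F : Ix → Ix → V → ℝ} (hF : ∀ m n, Tst (F m n))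
    (hsp : ∀ m n, ∀ y ∈ tsupport (F m n), GF.mdot a y < u - |t|) (v : D) :
    Sd Q A K a b u t (sm T F v) = sm T F (Sd Q A K a b u t v) := by
  unfold sm
  rw [f2_sum hT h ha]
  refine Finset.sum_congr rfl fun m _ => ?_
  rw [f2_sum hT h ha]
  refine Finset.sum_congr rfl fun n _ => ?_
  have hsub : tsupport (fun x => (F m n x : ℂ)) ⊆ tsupport (F m n) := by
    refine closure_mono fun x hx => ?_
    intro h0
    apply hx
    show ((F m n x : ℝ) : ℂ) = 0
    rw [h0, Complex.ofReal_zero]
  refine hs u t m n _ (hF m n).isTest ?_ (fun y hy => hsp m n y (hsub hy)) v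
  exact (hF m n).2.mono' (subset_trans subset_closure hsub)

/-- **The second differences commute with the Poincaré generators.** -/
theorem f2_A (hb : IsNull b) (hab : GF.mdot a b = 1) (hs : SdT Q T A K a b) {X : V → V}
    (hX : IsSim 0 X) (hXF : Fol a X) (u t : ℝ) (v : D) :
    Sd Q A K a b u t (A X v) = A X (Sd Q A K a b u t v) := by
  have hk := ks_of hT h
  obtain ⟨κ, hκ, hκ1⟩ := exists_kp
  let f : ContDiffBump (u - |t| - 3 : ℝ) := ⟨1, 2, one_pos, one_lt_two⟩
  have hφ : Tst (f.normed volume) := ⟨f.contDiff_normed, f.hasCompactSupport_normed⟩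
  have hφs : tsupport (f.normed volume) = Metric.closedBall (u - |t| - 3 : ℝ) 2 :=
    f.tsupport_normed_eq
  have hφ1 : ∫ x, ((f.normed volume x : ℝ) : ℂ) = 1 := by
    have h1 : ∫ u, ((f.normed volume u : ℝ) : ℂ) = ((∫ u, f.normed volume u : ℝ) : ℂ) :=
      integral_ofReal
    rw [h1, f.integral_normed, Complex.ofReal_one]
  set φ : ℝ → ℝ := f.normed volume with hφdef
  have hA : Adm a b κ φ := ⟨ha, hb, hab, hκ, hκ1, hφ⟩
  obtain ⟨c, w, hw, hXe⟩ := id hX
  have hcd : ∀ m n, ContDiff ℝ ∞ fun x => GF.eta m * a m * (GF.eta n * X x n) := by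
    intro m n
    have e : (fun x : V => GF.eta m * a m * (GF.eta n * X x n)) = fun x : V =>
        GF.eta m * a m * (GF.eta n * (c n + 0 * x n + ∑ m, x m * w m n)) := by
      funext x
      rw [hXe]
    rw [e]
    fun_prop
  have hF : ∀ R, 1 ≤ R → ∀ m n, Tst fun x => GF.eta m * a m * (GF.eta n * X x n) *
      ctf a b κ 0 φ R x := fun R hR m n =>
    H846.ctf_tst hA.1.1 hA.2.1.1 hA.2.2.1 hA.2.2.2.1 hA.2.2.2.2.2 hR (hcd m n)
  have hsp : ∀ R m n, ∀ y ∈ tsupport (fun x => GF.eta m * a m * (GF.eta n * X x n) *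
      ctf a b κ 0 φ R x), GF.mdot a y < u - |t| := by
    intro R m n y hy
    have h1 : IsClosed {x : V | GF.mdot a x ∈ Metric.closedBall (u - |t| - 3 : ℝ) 2} :=
      Metric.isClosed_closedBall.preimage (H846.contDiff_mdot a).continuous
    have h2 : tsupport (fun x => GF.eta m * a m * (GF.eta n * X x n) * ctf a b κ 0 φ R x) ⊆
        {x : V | GF.mdot a x ∈ Metric.closedBall (u - |t| - 3 : ℝ) 2} := by
      refine closure_minimal (fun x hx => ?_) h1
      show GF.mdot a x ∈ Metric.closedBall (u - |t| - 3 : ℝ) 2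
      rw [← hφs]
      refine subset_closure fun h0 => hx ?_
      show GF.eta m * a m * (GF.eta n * X x n) * (cut a b κ R (x - 0) * φ (GF.mdot a x)) = 0
      rw [h0]
      ring
    have h3 : |GF.mdot a y - (u - |t| - 3)| ≤ 2 := by
      have := h2 hy
      rw [Set.mem_setOf_eq, Metric.mem_closedBall, Real.dist_eq] at this
      exact this
    have := (abs_le.1 h3).2
    linarith
  have lim : ∀ v z : D, Tendsto (fun R => inner ℂ z (sm T (fun m n x =>
      GF.eta m * a m * (GF.eta n * X x n) * ctf a b κ 0 φ R x) v)) atTop (𝓝 (inner ℂ z (A X v))) := by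
    intro v z
    have h1 := h.gen a b κ 0 φ X v z hA hX hXF
    simpa [hφ1] using h1
  refine ext_inner_left ℂ fun z => ?_
  have l1 := lim v (Sd Q A K a b u t z)
  have l2 := lim (Sd Q A K a b u t v) z
  rw [← f2_symm hT hk ha]
  refine tendsto_nhds_unique l1 (l2.congr' ?_)
  filter_upwards [eventually_ge_atTop (1 : ℝ)] with R hR
  rw [f2_symm hT hk ha, f2_sm hT h ha hs (hF R hR) (hsp R)]

end

theorem sd_gen (hT : Q.IsStress T) (hJ : IsVirial Q T J) (h : NullMom Q T A K) {a b : V}
    (ha : IsNull a) (hb : IsNull b) (hab : GF.mdot a b = 1) {X : V → V} (hX : IsSim 0 X)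
    (hF : Fol a X) (u t : ℝ) (v : D) : Sd Q A K a b u t (A X v) = A X (Sd Q A K a b u t v) :=
  f2_A hT h ha hb hab (sdT hT hJ h ha hb hab) hX hF u t v

end Vale.Agent.P352.NF

end
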