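import Vale.Agent.P352.NF.F2
import Vale.Agent.P352.NF.F4a

/-!
# P352 NF: the second differences of the second moments vanish
-/

set_option linter.all false

noncomputable section

open MeasureTheory Filter Topology SchwartzMap Complex
open scoped SchwartzMap ComplexConjugate ContDiff LineDeriv

namespace Vale.Agent.P352.NF

open GF (Ix V Fn Fld Theory Sch IsLor bas o sim pd tr ev bar)
open H246 H496 H755 H15 H846 H246R H746 N86 NC
open UniformSpace (Completion)

variable {D : Type*} [NormedAddCommGroup D] [InnerProductSpace ℂ D]
variable {Q : GF.Theory D} {T : Ix → Ix → GF.Fld D} {J : Ix → GF.Fld D}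
variable {A : (V → V) → D → D} {K : V → D → D}

/-- **The second differences vanish.** -/
theorem sd_zero (hT : Q.IsStress T) (hJ : IsVirial Q T J) (h : NullMom Q T A K) {a b : V}
    (ha : IsNull a) (hb : IsNull b) (hab : GF.mdot a b = 1) (u t : ℝ) (v : D) :
    Sd Q A K a b u t v = 0 := by
  have hk := ks_of hT h
  refine sd_zero_of h.toRep ha hb hab (fun v w => ks_symm hT hk ha v w)
    (fun r L v hr hL he => ?_) (fun v w => h.cont a b v w ha hb)
    (fun X hX hF u t v => sd_gen hT hJ h ha hb hab hX hF u t v) u t v
  have h1 := ks_cov hT hk v one_pos hr hL ha ha he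
  rw [div_one] at h1
  exact h1

end Vale.Agent.P352.NF

end
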