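import Vale.Agent.P352.NF.F4
import Vale.Agent.P352.H731.Key
import Vale.Agent.P352.H746.NoGen

/-!
# The deviation charge kills the one-field vectors and commutes with `T` and `J`
-/

set_option linter.all false

noncomputable section

open MeasureTheory SchwartzMap Filter Topology Set
open scoped SchwartzMap ContDiff ComplexConjugate

namespace Vale.Agent.P352.NF

open GF (Ix V Fn Fld bas eta o bar)
open H755 H496 H15 H121 H246

variable {D : Type*} [NormedAddCommGroup D] [InnerProductSpace ℂ D]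
variable {Q : GF.Theory D} {T : Ix → Ix → GF.Fld D} {J : Ix → GF.Fld D}
  {A : (V → V) → D → D} {K C : V → D → D}

/-- the charge annihilates the vacuum -/
lemma kc_vac {a : V} {K C : D → D} (k : H731.KC Q A a K C) : C Q.vac = 0 := by
  have ha := k.nul
  obtain ⟨b, hb, hab⟩ := exists_dual ha
  have e0 : GF.sim 1 GF.one 0 a = (1 : ℝ) • a := by
    rw [sim_one, one_smul]
    funext n
    simp
  have hK : K Q.vac = 0 := by
    have h1 := k.kc 2 GF.one 1 Q.vac two_pos one_pos Vale.Agent.P352.isLor_one e0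
    rw [Q.U_vac 2 GF.one 0 two_pos Vale.Agent.P352.isLor_one] at h1
    have h2 : ‖K Q.vac‖ = (1 / 2) * ‖K Q.vac‖ := by
      have h3 := congrArg norm h1
      rw [U_nrm0 two_pos Vale.Agent.P352.isLor_one, norm_smul, Complex.norm_real,
        Real.norm_of_nonneg (by norm_num)] at h3
      exact h3
    have h4 : ‖K Q.vac‖ = 0 := by linarith
    exact norm_eq_zero.1 h4
  have h1 := k.tra b Q.vac
  have hA : A (XX a b) Q.vac = 0 := H746.A_vac k.rep (XX_sim a b)
  have hU : Q.U 1 GF.one b (0 : D) = 0 := by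
    have := U_smul (Q := Q) one_pos Vale.Agent.P352.isLor_one b 0 (0 : D)
    rwa [zero_smul, zero_smul] at this
  rw [Q.U_vac 1 GF.one (-b) one_pos Vale.Agent.P352.isLor_one, hK, hU] at h1
  have h2 : (0 : D) = 0 + A (XX a b) Q.vac - ((2 * GF.mdot a b : ℝ) : ℂ) • C Q.vac := h1
  rw [hA, hab, zero_add, zero_sub] at h2
  have h5 := neg_eq_zero.1 h2.symm
  exact (smul_eq_zero.1 h5).resolve_left (by norm_num)

/-- the charge annihilates the vectors of the tensor fields -/
lemma kc_ten {a : V} {K C : D → D} (k : H731.KC Q A a K C) {l : ℕ} {d : ℝ}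
    {Φ : (Fin l → Ix) → GF.Fld D} (hΦ : H846.IsTen Q l d Φ) (μ : Fin l → Ix) {f : Fn}
    (hf : GF.IsTest f) : C (Φ μ f Q.vac) = 0 :=
  H846.ten_zero k.nul.1 k.cs
    (fun s L r x v hs hr hL hLa => (k.cc s L r x v hs hr hL hLa).symm)
    (fun p q Y hY F => k.key (H731.wb k.nul.1) p q Y hY F) hΦ μ hf

lemma kc_T (hT : Q.IsStress T) {a : V} {K C : D → D} (k : H731.KC Q A a K C) (m n : Ix) {f : Fn}
    (hf : GF.IsTest f) : C (T m n f Q.vac) = 0 :=
  kc_ten k (H746.isTen_T hT) ![m, n] hf

lemma kc_J (hJ : IsVirial Q T J) {a : V} {K C : D → D} (k : H731.KC Q A a K C) (m : Ix) {f : Fn}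
    (hf : GF.IsTest f) : C (J m f Q.vac) = 0 :=
  kc_ten k (H746.isTen_J hJ) ![m] hf

/-- one plane: the charge commutes with the stress tensor -/
theorem hcT1 (hT : Q.IsStress T) (hm : Mom Q T K) {a : V} {C : D → D}
    (k : H731.KC Q A a (K a) C) (m n : Ix) {f : Fn} (hf : GF.IsTest f) (v : D) :
    C (T m n f v) = T m n f (C v) := by
  obtain ⟨b, hb, hab⟩ := exists_dual k.nul
  refine c_loc k.nul hb hab hT k.rep hm (fun u v => ?_) k.cs (Q.bose_fld _ (hT.bose m n))
    (hT.bose m n) (hT.herm m n) (locA_T hT k.rep m n) (kc_vac k)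
    (fun f hf _ => kc_T hT k m n hf) hf v
  have h : Q.U 1 GF.one (u • b) (K a (Q.U 1 GF.one (-(u • b)) v)) = K a v + A (XX a (u • b)) v -
      ((2 * GF.mdot a (u • b) : ℝ) : ℂ) • C v := k.tra (u • b) v
  rw [H755.md_smul, hab, mul_one] at h
  exact h

/-- one plane: the charge commutes with the virial current -/
theorem hcJ1 (hT : Q.IsStress T) (hJ : IsVirial Q T J) (hm : Mom Q T K) {a : V} {C : D → D}
    (k : H731.KC Q A a (K a) C) (m : Ix) {f : Fn} (hf : GF.IsTest f) (v : D) :
    C (J m f v) = J m f (C v) := by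
  obtain ⟨b, hb, hab⟩ := exists_dual k.nul
  refine c_loc k.nul hb hab hT k.rep hm (fun u v => ?_) k.cs (Q.bose_fld _ (hJ.bose m))
    (hJ.bose m) (hJ.herm m) (locA_J hJ k.rep m) (kc_vac k)
    (fun f hf _ => kc_J hJ k m hf) hf v
  have h : Q.U 1 GF.one (u • b) (K a (Q.U 1 GF.one (-(u • b)) v)) = K a v + A (XX a (u • b)) v -
      ((2 * GF.mdot a (u • b) : ℝ) : ℂ) • C v := k.tra (u • b) v
  rw [H755.md_smul, hab, mul_one] at h
  exact h

section

variable (k : ∀ a, IsNull a → H731.KC Q A a (K a) (C a))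
include k

lemma traC : TraC Q A K C := fun a x v ha => (k a ha).tra x v

/-- **the charge commutes with the stress tensor** -/
theorem hcT (hT : Q.IsStress T) (hm : Mom Q T K) :
    ∀ a m n f v, IsNull a → GF.IsTest f → C a (T m n f v) = T m n f (C a v) := by
  intro a m n f v ha hf
  exact c_T hT (k a ha).rep hm (traC k) (fun a v w ha => (k a ha).cs v w)
    (fun a ha => kc_vac (k a ha)) (fun a m n f ha hf _ => kc_T hT (k a ha) m n hf) a m n f v ha hf

/-- **the charge commutes with the virial current** -/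
theorem hcJ (hT : Q.IsStress T) (hJ : IsVirial Q T J) (hm : Mom Q T K) :
    ∀ a m f v, IsNull a → GF.IsTest f → C a (J m f v) = J m f (C a v) := by
  intro a m f v ha hf
  exact c_J hT hJ (k a ha).rep hm (traC k) (fun a v w ha => (k a ha).cs v w)
    (fun a ha => kc_vac (k a ha)) (fun a m f ha hf _ => kc_J hJ (k a ha) m hf) a m f v ha hf

/-- the charge commutes with all tensor fields of real dimension on which the generators act
locally -/
theorem hcφ (hT : Q.IsStress T) (hm : Mom Q T K) {l : ℕ} {d : ℝ}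
    {Φ : (Fin l → Ix) → GF.Fld D} (hΦ : H846.IsTen Q l d Φ) (μ : Fin l → Ix)
    (hL : LocA Q A (Φ μ)) {B : GF.Fld D} (hB : Q.fld B)
    (hadj : ∀ f v w, GF.IsTest f → inner ℂ (B f v) w = inner ℂ v (Φ μ (bar f) w))
    {a : V} (ha : IsNull a) {f : Fn} (hf : GF.IsTest f) (v : D) :
    C a (B f v) = B f (C a v) := by
  obtain ⟨b, hb, hab⟩ := exists_dual ha
  exact c_loc ha hb hab hT (k a ha).rep hm (f4_tra (traC k) ha hab) (k a ha).cs hB (hΦ.1 μ) hadj hL
    (kc_vac (k a ha)) (fun f hf _ => kc_ten (k a ha) hΦ μ hf) hf v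

end

end Vale.Agent.P352.NF

end
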