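import Vale.Agent.P352.H15.V9
import Vale.Agent.P352.N86.Defs

open MeasureTheory Filter Topology

namespace Vale.Agent.P352.NF

open GF H246 H496 H755 H15

noncomputable section

variable {D : Type*} [NormedAddCommGroup D] [InnerProductSpace ℂ D]

/-- The vector field `X` preserves the foliation by the hyperplanes orthogonal to `a`. -/
def Fol (a : V) (X : V → V) : Prop := ∃ l c : ℝ, ∀ z, GF.mdot a (X z) = l * GF.mdot a z + c

/-- The charges of the stress tensor `T` on the null hyperplanes orthogonal to `a`: the charges of
the currents `X^n T_{mn}`, `X` an infinitesimal Poincaré transformation that preserves the foliation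
by these hyperplanes, are the generators `A X`, the second moments `K a` of `T_aa` exist, as
operators on `D`, and they are continuous under translations. -/
structure NullMom (Q : Theory D) (T : Ix → Ix → Fld D) (A : (V → V) → D → D) (K : V → D → D) :
    Prop extends Rep Q A where
  gen : ∀ a b κ y ψ X v w, Adm a b κ ψ → IsSim 0 X → Fol a X → Tendsto (fun R => inner ℂ w
    (sm T (fun m n x => eta m * a m * (eta n * X x n) * ctf a b κ y ψ R x) v)) atTop
    (𝓝 ((∫ u, (ψ u : ℂ)) * inner ℂ w (A X v)))
  mom : Mom Q T K
  cont : ∀ a b v w, IsNull a → IsNull b →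
    Continuous fun u : ℝ => inner ℂ w (Q.U 1 GF.one (u • b) (K a (Q.U 1 GF.one (-(u • b)) v)))

/-- The part of the properties of the second moments that does not refer to the stress tensor. -/
structure KS (Q : Theory D) (A : (V → V) → D → D) (K : V → D → D) : Prop extends Rep Q A where
  symm : ∀ a v w, IsNull a → inner ℂ (K a v) w = inner ℂ v (K a w)
  cov : ∀ s L r a b v, 0 < s → 0 < r → IsLor L → IsNull a → IsNull b → sim 1 L 0 a = r • b →
    Q.U s L 0 (K a v) = ((r / s : ℝ) : ℂ) • K b (Q.U s L 0 v)
  tra : ∀ a x v, IsNull a → GF.mdot a x = 0 →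
    Q.U 1 GF.one x (K a (Q.U 1 GF.one (-x) v)) = K a v + A (XX a x) v

end

end Vale.Agent.P352.NF
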