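import Vale.Agent.P352.NC.Defs
import Vale.Agent.P352.NF.Ks

/-!
# P352: the second derivative of the second moments under translations
-/

set_option linter.all false

noncomputable section

open MeasureTheory Filter Topology SchwartzMap Complex
open scoped SchwartzMap ComplexConjugate ContDiff LineDeriv

namespace Vale.Agent.P352.NF

open GF (Ix V Fn Fld Theory Sch IsLor bas o sim pd tr ev bar)
open H246 H496 H755 H15 H846 H246R H746 N86 NC
open UniformSpace (Completion)

variable {D : Type*} [NormedAddCommGroup D] [InnerProductSpace ℂ D]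
variable {Q : GF.Theory D} {T : Ix → Ix → GF.Fld D} {J : Ix → GF.Fld D}
variable {A : (V → V) → D → D} {K : V → D → D}

/-! ### The translations -/

section

variable (R : H15.Rep Q A)
include R

lemma e1_Pc (x : V) : IsSim 0 (fun _ : V => x) := const_sim x

lemma e1_adj {r : ℝ} {X : V → V} (hX : IsSim r X) : Adj (A X) (A X) := A_symm R hX

lemma e1_add {r : ℝ} {X : V → V} (hX : IsSim r X) (v w : D) : A X (v + w) = A X v + A X w :=
  (e1_adj R hX).add v w

lemma e1_smul {r : ℝ} {X : V → V} (hX : IsSim r X) (c : ℂ) (v : D) : A X (c • v) = c • A X v :=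
  (e1_adj R hX).smul c v

lemma e1_sub {r : ℝ} {X : V → V} (hX : IsSim r X) (v w : D) : A X (v - w) = A X v - A X w := by
  rw [sub_eq_add_neg, ← neg_one_smul ℂ w, e1_add R hX, e1_smul R hX, neg_one_smul, ← sub_eq_add_neg]

/-- linearity in the vector -/
lemma e1_lin (x y : V) (c : ℝ) (v : D) :
    A (fun _ => x + c • y) v = A (fun _ => x) v + (c : ℂ) • A (fun _ => y) v :=
  R.add 0 0 c (fun _ => x) (fun _ => y) v (const_sim x) (const_sim y)

lemma e1_addv (x y : V) (v : D) :
    A (fun _ => x + y) v = A (fun _ => x) v + A (fun _ => y) v := by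
  have h := e1_lin R x y 1 v
  simpa using h

lemma e1_smulv (c : ℝ) (y : V) (v : D) :
    A (fun _ => c • y) v = (c : ℂ) • A (fun _ => y) v := by
  have h := e1_lin R 0 y c v
  have h0 : A (fun _ => (0 : V)) v = 0 := A_zero' R v
  rw [zero_add, h0, zero_add] at h
  exact h

/-- the derivative of the translations -/
lemma e1_der (x : V) (v : D) :
    HasDerivAt (fun s : ℝ => Q.U 1 GF.one (s • x) v) (I • A (fun _ => x) v) 0 := by
  refine R.der (fun _ => 1) (fun _ => GF.one) (fun s => s • x) (fun _ => x) v rfl rfl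
    (zero_smul _ _) (fun _ => ⟨one_pos, isLor_one⟩) fun n z => ?_
  have e : (fun e : ℝ => sim 1 GF.one (e • x) z n) = fun e : ℝ => z n + e * x n + e ^ 2 * 0 := by
    funext e
    rw [sim_one']
    simp only [Pi.add_apply, Pi.smul_apply, smul_eq_mul]
    ring
  rw [e]
  exact hasDeriv_poly _ _ _

/-- the translations commute with their generators -/
lemma e1_PU (b x : V) (v : D) :
    A (fun _ => b) (Q.U 1 GF.one x v) = Q.U 1 GF.one x (A (fun _ => b) v) := by
  have h := conj_const R b x (Q.U 1 GF.one x v)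
  rw [Uadd1, neg_add_cancel, Uone] at h
  exact h.symm

/-- commutators from conjugations by translations -/
lemma e1_comm {B B' : D → D} (hB : Adj B B') {x : V} {v C E : D}
    (h : ∀ s : ℝ, B (Q.U 1 GF.one (s • x) v) =
      Q.U 1 GF.one (s • x) (B v + (s : ℂ) • C + ((s ^ 2 : ℝ) : ℂ) • E)) :
    B (A (fun _ => x) v) = A (fun _ => x) (B v) - I • C := by
  have hψ : HasDerivAt (fun s : ℝ => B v + (s : ℂ) • C + ((s ^ 2 : ℝ) : ℂ) • E) C 0 := by
    have h1 : HasDerivAt (fun s : ℝ => (s : ℂ) • C) C 0 := by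
      have := (hasDerivAt_id (0 : ℝ)).smul_const C
      simpa using this
    have h2 : HasDerivAt (fun s : ℝ => ((s ^ 2 : ℝ) : ℂ) • E) 0 0 := by
      have h0 : HasDerivAt (fun s : ℝ => s ^ 2) 0 0 := by
        simpa using hasDerivAt_pow 2 (0 : ℝ)
      have h3 := h0.smul_const E
      rw [zero_smul] at h3
      exact h3
    have h3 := ((hasDerivAt_const (0 : ℝ) (B v)).fun_add h1).fun_add h2
    rw [zero_add, add_zero] at h3
    exact h3
  -- the strong derivative of the right hand side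
  have h1 : HasDerivAt (fun s : ℝ => Q.U 1 GF.one (s • x)
      (B v + (s : ℂ) • C + ((s ^ 2 : ℝ) : ℂ) • E)) (I • A (fun _ => x) (B v) + C) 0 := by
    have hK : Crv (fun _ => 1) (fun _ => GF.one) (fun s : ℝ => s • x) 0 0 x :=
      ⟨rfl, rfl, zero_smul _ _, fun _ => one_pos, fun _ => isLor_one, hasDerivAt_const _ _,
        fun m n => hasDerivAt_const _ _, fun n => by
          have := (hasDerivAt_id (0 : ℝ)).mul_const (x n)
          simpa using this⟩
    have h2 := der_U R hK (X := fun _ => x) (fun z n => by simp) hψ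
    have e0 : (B v + ((0 : ℝ) : ℂ) • C + (((0 : ℝ) ^ 2 : ℝ) : ℂ) • E) = B v := by simp
    rw [e0] at h2
    exact h2
  refine ext_inner_left ℂ fun z => ?_
  have h3 : HasDerivAt (fun s : ℝ => inner ℂ z (B (Q.U 1 GF.one (s • x) v)))
      (inner ℂ z (I • A (fun _ => x) (B v) + C)) 0 := by
    have e : (fun s : ℝ => inner ℂ z (B (Q.U 1 GF.one (s • x) v))) = fun s : ℝ => inner ℂ z
        (Q.U 1 GF.one (s • x) (B v + (s : ℂ) • C + ((s ^ 2 : ℝ) : ℂ) • E)) := by
      funext s
      rw [h]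
    rw [e]
    exact ((innerSL ℂ z).restrictScalars ℝ).hasFDerivAt.comp_hasDerivAt (0 : ℝ) h1
  have h4 : HasDerivAt (fun s : ℝ => inner ℂ (B' z) (Q.U 1 GF.one (s • x) v))
      (inner ℂ (B' z) (I • A (fun _ => x) v)) 0 :=
    ((innerSL ℂ (B' z)).restrictScalars ℝ).hasFDerivAt.comp_hasDerivAt (0 : ℝ) (e1_der R x v)
  have e : (fun s : ℝ => inner ℂ z (B (Q.U 1 GF.one (s • x) v))) =
      fun s : ℝ => inner ℂ (B' z) (Q.U 1 GF.one (s • x) v) := by
    funext s
    rw [hB.symm]
  rw [e] at h3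
  have h5 := h4.unique h3
  rw [inner_smul_right, hB.symm, inner_add_right, inner_smul_right] at h5
  rw [inner_sub_right, inner_smul_right]
  have h6 := congrArg (fun c : ℂ => -I * c) h5
  have e2 : -I * I = 1 := by rw [neg_mul, I_mul_I, neg_neg]
  simp only [mul_add, ← mul_assoc, e2, one_mul] at h6
  rw [h6]
  ring

/-- the translations commute -/
lemma e1_PP (b x : V) (v : D) : A (fun _ => b) (A (fun _ => x) v) =
    A (fun _ => x) (A (fun _ => b) v) := by
  have h := e1_comm R (e1_adj R (const_sim b)) (x := x) (v := v) (C := 0) (E := 0) (fun s => by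
    rw [e1_PU R]
    simp)
  simpa using h

/-- commutator with an affine field -/
lemma e1_AP {r : ℝ} {X : V → V} (hX : IsSim r X) (x : V) (v : D) :
    A X (A (fun _ => x) v) = A (fun _ => x) (A X v) - I • A (fun _ => X x - X 0) v := by
  refine e1_comm R (e1_adj R hX) (x := x) (v := v) (C := A (fun _ => X x - X 0) v) (E := 0)
    (fun s => ?_)
  have h := A_tra R hX (s • x) v
  have h1 : (fun z => X (z + s • x)) = fun z => X z + s • (fun _ : V => X x - X 0) z := by
    obtain ⟨c, w, -, hw⟩ := hX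
    funext z n
    simp only [Pi.add_apply, Pi.sub_apply, Pi.smul_apply, smul_eq_mul, hw, Fin.sum_univ_four,
      Pi.zero_apply]
    ring
  rw [h1, R.add r 0 s X (fun _ => X x - X 0) v hX (const_sim _)] at h
  have h2 := congrArg (Q.U 1 GF.one (s • x)) h
  rw [Uadd1, add_neg_cancel, Uone] at h2
  rw [h2]
  simp

end

/-! ### The second moments -/

section

variable (hT : Q.IsStress T) (h : KS Q A K)
include hT h

lemma e1_Kadj {a : V} (ha : IsNull a) : Adj (K a) (K a) := ks_symm hT h ha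

lemma e1_Kadd {a : V} (ha : IsNull a) (v w : D) : K a (v + w) = K a v + K a w :=
  (e1_Kadj hT h ha).add v w

lemma e1_Ksmul {a : V} (ha : IsNull a) (c : ℂ) (v : D) : K a (c • v) = c • K a v :=
  (e1_Kadj hT h ha).smul c v

/-- the field of the commutator -/
def e1_yw (a w z : V) : V := (2 * GF.mdot a z) • w - (2 * GF.mdot w z) • a

omit hT h in
lemma e1_yw_sim (a w : V) : IsSim 0 (e1_yw a w) := by
  refine ⟨0, fun m n => 2 * (GF.eta m * a m) * w n - 2 * (GF.eta m * w m) * a n, ?_, ?_⟩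
  · intro m n
    ring
  · intro z n
    simp only [e1_yw, GF.mdot, Fin.sum_univ_four, Pi.sub_apply, Pi.smul_apply,
      smul_eq_mul, Pi.zero_apply]
    ring

omit hT h in
lemma e1_XX_neg (a y : V) : XX a (-y) = Yx a y := by
  funext z n
  simp only [XX, Yx, cK, GF.mdot, Fin.sum_univ_four, Pi.add_apply, Pi.sub_apply, Pi.smul_apply,
    Pi.neg_apply, smul_eq_mul]
  ring

omit hT h in
lemma e1_isSimY (a x : V) : IsSim (2 * GF.mdot a x) (Yx a x) := by
  refine ⟨cK a x, fun m n => 2 * (GF.eta m * a m) * x n - 2 * (GF.eta m * x m) * a n, ?_, ?_⟩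
  · intro m n
    ring
  · intro z n
    simp only [Yx, cK, GF.mdot, Fin.sum_univ_four, Pi.add_apply, Pi.sub_apply, Pi.smul_apply,
      smul_eq_mul]
    ring

/-- translations along the null plane -/
lemma e1_KU {a w : V} (ha : IsNull a) (hw : GF.mdot a w = 0) (v : D) :
    K a (Q.U 1 GF.one w v) = Q.U 1 GF.one w (K a v + A (Yx a w) v) := by
  have hw' : GF.mdot a (-w) = 0 := by
    rw [← neg_one_smul ℝ w, md_smul, hw, mul_zero]
  have h1 := ks_tra hT h ha hw' v
  rw [neg_neg, e1_XX_neg] at h1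
  rw [← h1, Uadd1, add_neg_cancel, Uone]

/-- the commutator with the translations along the null plane -/
lemma e1_KP {a w : V} (ha : IsNull a) (hw : GF.mdot a w = 0) (v : D) :
    K a (A (fun _ => w) v) = A (fun _ => w) (K a v) - I • A (e1_yw a w) v := by
  refine e1_comm h.toRep (e1_Kadj hT h ha) (x := w) (v := v) (C := A (e1_yw a w) v)
    (E := A (fun _ => -(GF.mdot w w) • a) v) (fun s => ?_)
  rw [e1_KU hT h ha (by rw [md_smul, hw, mul_zero])]
  congr 1
  rw [add_assoc]
  congr 1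
  have e : Yx a (s • w) = fun z => s • e1_yw a w z + (s ^ 2) • (fun _ : V => -(GF.mdot w w) • a) z := by
    funext z
    simp only [Yx, cK, e1_yw, md_add, md_smul, md_add_l, md_smul_l, hw]
    rw [md_comm z w]
    funext n
    simp only [Pi.add_apply, Pi.sub_apply, Pi.smul_apply, smul_eq_mul]
    ring
  rw [e, A_lin2 h.toRep _ _ v (e1_yw_sim a w) (const_sim _)]

lemma e1_symm {a : V} (ha : IsNull a) (x : V) (v w : D) :
    inner ℂ (Xi A K a x v) w = inner ℂ v (Xi A K a x w) := by
  have hP := e1_adj h.toRep (const_sim x)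
  have hC := e1_adj h.toRep (const_sim (cK a x))
  have hK := e1_Kadj hT h ha
  unfold Xi NC.Pg
  simp only [inner_sub_left, inner_sub_right, inner_smul_left, inner_smul_right]
  rw [hP, hK, hP, hK, hP, hP, hP, hP, hK, hC]
  simp only [map_ofNat]
  ring

lemma e1_adjX {a : V} (ha : IsNull a) (x : V) : Adj (Xi A K a x) (Xi A K a x) :=
  e1_symm hT h ha x

lemma e1_addX {a : V} (ha : IsNull a) (x : V) (v w : D) :
    Xi A K a x (v + w) = Xi A K a x v + Xi A K a x w := (e1_adjX hT h ha x).add v w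

lemma e1_smulX {a : V} (ha : IsNull a) (x : V) (c : ℂ) (v : D) :
    Xi A K a x (c • v) = c • Xi A K a x v := (e1_adjX hT h ha x).smul c v

/-- `Xi` is quadratic -/
lemma e1_quad {a : V} (ha : IsNull a) (t : ℝ) (x : V) (v : D) :
    Xi A K a (t • x) v = ((t ^ 2 : ℝ) : ℂ) • Xi A K a x v := by
  have R := h.toRep
  have hX := const_sim x
  have hc : cK a (t • x) = (t ^ 2) • cK a x := by
    funext n
    simp only [cK, md_smul, md_smul_l, Pi.sub_apply, Pi.smul_apply, smul_eq_mul]
    ring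
  unfold Xi NC.Pg
  rw [hc]
  simp only [e1_smulv R, e1_smul R hX, e1_Ksmul hT h ha]
  push_cast
  module

/-- covariance -/
lemma e1_cov {a b : V} (ha : IsNull a) (hb : IsNull b) {s r : ℝ} (hs : 0 < s) (hr : 0 < r)
    {L : Ix → V} (hL : IsLor L) (hab : sim 1 L 0 a = r • b) (x : V) (v : D) :
    Q.U s L 0 (Xi A K a x v) = ((r / s : ℝ) : ℂ) • Xi A K b (sim s L 0 x) (Q.U s L 0 v) := by
  have R := h.toRep
  have hU := U_smul (Q := Q) hs hL 0
  have hUs := H746.U_sub' (Q := Q) hs hL 0
  have hP : ∀ (y : V) (u : D), Q.U s L 0 (A (fun _ => y) u) =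
      A (fun _ => s • sim 1 L 0 y) (Q.U s L 0 u) := fun y u => A_conj R (const_sim y) hs hL 0 u
  have hKc : ∀ u : D, Q.U s L 0 (K a u) = ((r / s : ℝ) : ℂ) • K b (Q.U s L 0 u) := fun u =>
    ks_cov hT h u hs hr hL ha hb hab
  have hx : sim s L 0 x = s • sim 1 L 0 x := sim_s _ _ _
  have hc : s • sim 1 L 0 (cK a x) = (r / s) • cK b (sim s L 0 x) := by
    rw [hx]
    have e1 : sim 1 L 0 (cK a x) = cK (r • b) (sim 1 L 0 x) := by
      rw [← hab]
      simp only [cK, simL_sub, simL_smul, md_LL hL]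
    rw [e1]
    funext n
    simp only [cK, md_smul, md_smul_l, Pi.sub_apply, Pi.smul_apply, smul_eq_mul]
    field_simp
  have hX := const_sim (s • sim 1 L 0 x)
  unfold Xi NC.Pg
  simp only [hUs, hU, hP, hKc, hc, e1_smul R hX, ← hx]
  rw [e1_smulv R]
  have hX' := const_sim (sim s L 0 x)
  simp only [e1_smul R hX']
  module

lemma e1_scale {a : V} (ha : IsNull a) {r : ℝ} (hr : 0 < r) (x : V) (v : D) :
    Xi A K (r • a) x v = ((r : ℝ) : ℂ) • Xi A K a x v := by
  have hra : IsNull (r • a) := ⟨by rw [md_smul, md_smul_l, ha.1]; simp, by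
    show 0 < r * a o
    exact mul_pos hr ha.2⟩
  have h1 := e1_cov hT h hra ha one_pos hr isLor_one (by rw [sim_one', add_zero]) x v
  rw [Uone, Uone, sim_one', add_zero, div_one] at h1
  exact h1

end

theorem Xi_symm (hT : Q.IsStress T) (h : KS Q A K) {a : V} (ha : IsNull a) (x : V)
    (v w : D) : inner ℂ (Xi A K a x v) w = inner ℂ v (Xi A K a x w) :=
  e1_symm hT h ha x v w

theorem Xi_cov (hT : Q.IsStress T) (h : KS Q A K) {s r : ℝ} (hs : 0 < s) (hr : 0 < r)
    {L : Ix → V} (hL : IsLor L) {a b : V} (ha : IsNull a) (hb : IsNull b)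
    (hab : sim 1 L 0 a = r • b) (x : V) (v : D) :
    Q.U s L 0 (Xi A K a x v) = ((r / s : ℝ) : ℂ) • Xi A K b (sim s L 0 x) (Q.U s L 0 v) :=
  e1_cov hT h ha hb hs hr hL hab x v

theorem Xi_smul (hT : Q.IsStress T) (h : KS Q A K) {a : V} (ha : IsNull a) (c : ℝ)
    (x : V) (v : D) : Xi A K a (c • x) v = ((c ^ 2 : ℝ) : ℂ) • Xi A K a x v :=
  e1_quad hT h ha c x v

theorem Xi_hom (hT : Q.IsStress T) (h : KS Q A K) {a : V} (ha : IsNull a) {r : ℝ}
    (hr : 0 < r) (x : V) (v : D) : Xi A K (r • a) x v = (r : ℂ) • Xi A K a x v :=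
  e1_scale hT h ha hr x v

end Vale.Agent.P352.NF

end
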