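import Vale.Agent.P352.NF.E2
import Vale.Agent.P352.N86.K.C6a

/-!
# P352: the operator `Xi` in the frame
-/

set_option linter.all false

noncomputable section

open MeasureTheory Filter Topology SchwartzMap Complex
open scoped SchwartzMap ComplexConjugate ContDiff LineDeriv

namespace Vale.Agent.P352.NF

open GF (Ix V Fn Fld Theory Sch IsLor bas o sim pd tr ev bar)
open H246 H496 H755 H15 H846 H246R H746 N86 NC
open UniformSpace (Completion)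

variable {D : Type*} [NormedAddCommGroup D] [InnerProductSpace ℂ D]
variable {Q : GF.Theory D} {T : Ix → Ix → GF.Fld D} {J : Ix → GF.Fld D}
variable {A : (V → V) → D → D} {K : V → D → D}

lemma e3_n0 : IsNull NC.n0 := by
  have h1 : IsNull (nu 1) := isNull_nu (Or.inl rfl)
  unfold NC.n0
  exact ⟨by rw [md_smul, md_smul_l, h1.1]; simp, by
    show 0 < (1 / 2 : ℝ) * nu 1 o
    exact mul_pos (by norm_num) h1.2⟩

theorem Th_Wd (hT : Q.IsStress T) (h : KS Q A K) (t : ℝ) (v : D) :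
    Th A K (H496.Wd Q t v) = H496.Wd Q t (Th A K v) := by
  have h1 := Xi_cov hT h (Real.exp_pos t) (Real.exp_pos t) (isLor_boost t) e3_n0 e3_n0
    (C6.boost_a0' t) (nu (-1)) v
  have h2 := C6.boost_smul_nu t 1
  rw [one_smul] at h2
  rw [h2, div_self (Real.exp_pos t).ne', ofReal_one, one_smul] at h1
  exact h1.symm

/-- the null vectors `nr c NC.n0` -/
def e3_m (c : ℝ × ℝ) : V := sim 1 (nr c) 0 NC.n0

lemma e3_m_apply (c : ℝ × ℝ) : e3_m c =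
    ![(1 + (c.1 ^ 2 + c.2 ^ 2)) / 2, (1 - (c.1 ^ 2 + c.2 ^ 2)) / 2, c.1, c.2] := by
  unfold e3_m NC.n0
  funext n
  fin_cases n <;> simp [sim, nr, nu, Fin.sum_univ_four] <;> ring

lemma e3_m_null (c : ℝ × ℝ) : IsNull (e3_m c) := by
  refine ⟨?_, ?_⟩
  · rw [gf_mdot, e3_m_apply]
    simp
    ring
  · rw [e3_m_apply]
    show 0 < (1 + (c.1 ^ 2 + c.2 ^ 2)) / 2
    positivity

lemma e3_m_b (c : ℝ × ℝ) : GF.mdot (e3_m c) (nu (-1)) = 1 := by
  rw [gf_mdot, e3_m_apply]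
  simp [nu]
  ring

lemma e3_m_e0 (c : ℝ × ℝ) : GF.mdot (e3_m c) (bas o 1) = (1 + (c.1 ^ 2 + c.2 ^ 2)) / 2 := by
  rw [md_bas, e3_m_apply]
  simp [GF.eta, o]

lemma e3_U0 (v : D) : Q.U 1 GF.one 0 v = v := Uone v

/-- null rotations conjugate `Th` to `Xi` of the rotated null vector -/
theorem Th_conj (hT : Q.IsStress T) (h : KS Q A K) (c : ℝ × ℝ) (v : D) :
    Rn Q c (Th A K (Rn Q (-c) v)) = Xi A K (e3_m c) (nu (-1)) v := by
  have h1 := Xi_cov hT h one_pos one_pos (isLor_nr c) e3_n0 (e3_m_null c)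
    (by rw [one_smul]; rfl) (nu (-1)) (Rn Q (-c) v)
  have h2 : sim 1 (nr c) 0 (nu (-1)) = nu (-1) := by rw [nr_nu, one_smul]
  have h3 : Q.U 1 (nr c) 0 (Rn Q (-c) v) = v := by
    unfold Rn
    rw [h.mul 1 (nr c) 0 1 (nr (-c)) 0 v one_pos one_pos (isLor_nr c) (isLor_nr (-c)), nr_add,
      one_mul, sim_zero', add_neg_cancel]
    have e : nr (0 : ℝ × ℝ) = GF.one := by
      funext m n
      fin_cases m <;> fin_cases n <;> simp [nr, GF.one, bas]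
    rw [e]
    exact Uone v
  rw [h2, h3, div_one, ofReal_one, one_smul] at h1
  exact h1

/-- `Xi` of any null vector is a multiple of a rotated fixed operator -/
theorem Xi_rot (hT : Q.IsStress T) (h : KS Q A K) {m : V} (hm : IsNull m) :
    ∃ θ ψ : ℝ, ∀ v : D, Q.U 1 (Rt θ ψ) 0 (Xi A K (nu (-1)) (bas o 1)
      (Q.U 1 (linv (Rt θ ψ)) 0 v)) = (((m 0)⁻¹ : ℝ) : ℂ) • Xi A K m (bas o 1) v := by
  obtain ⟨θ, ψ, hR⟩ := exists_rot hm
  have hm0 : 0 < m 0 := hm.2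
  refine ⟨θ, ψ, fun v => ?_⟩
  have h1 := Xi_cov hT h one_pos (inv_pos.2 hm0) (isLor_Rt θ ψ) (isNull_nu (Or.inr rfl)) hm
    hR (bas o 1) (Q.U 1 (linv (Rt θ ψ)) 0 v)
  have h2 : sim 1 (Rt θ ψ) 0 (bas o 1) = bas o 1 := by
    funext n
    fin_cases n <;> simp [sim, Rt, bas, o, Fin.sum_univ_four]
  have h3 : Q.U 1 (Rt θ ψ) 0 (Q.U 1 (linv (Rt θ ψ)) 0 v) = v := by
    have h4 := H755.U_linv' h.toRep one_pos (isLor_Rt θ ψ) v
    rwa [inv_one] at h4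
  rw [h2, h3, div_one] at h1
  exact h1

/-- `c` is the image of `NC.n0` under a null rotation, `Xi c` is the conjugate of `Th`, and a multiple
of a rotated fixed operator -/
theorem Th_frame (hT : Q.IsStress T) (h : KS Q A K) (c : ℝ × ℝ) :
    ∃ θ ψ : ℝ, ∀ v : D, Rn Q c (Th A K (Rn Q (-c) v)) =
      (((1 + (c.1 ^ 2 + c.2 ^ 2)) / 2 : ℝ)⁻¹ : ℂ) •
        Q.U 1 (Rt θ ψ) 0 (Xi A K (nu (-1)) (bas o 1) (Q.U 1 (linv (Rt θ ψ)) 0 v)) := by
  have hm := e3_m_null c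
  obtain ⟨θ, ψ, hR⟩ := Xi_rot hT h hm
  refine ⟨θ, ψ, fun v => ?_⟩
  have hc : (0 : ℝ) < (1 + (c.1 ^ 2 + c.2 ^ 2)) / 2 := by positivity
  have h0 : e3_m c 0 = (1 + (c.1 ^ 2 + c.2 ^ 2)) / 2 := by
    rw [e3_m_apply]; rfl
  have h1 := e2_sq hT h hm (nu (-1)) (y := bas o 1) (by rw [e3_m_e0]; exact hc.ne') v
  rw [e3_m_b, e3_m_e0] at h1
  rw [Th_conj hT h, h1, hR, h0, smul_smul]
  congr 1
  push_cast
  have hc' : (((1 + (c.1 ^ 2 + c.2 ^ 2)) / 2 : ℝ) : ℂ) ≠ 0 := by exact_mod_cast hc.ne'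
  push_cast at hc'
  field_simp

end Vale.Agent.P352.NF

end
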