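import Vale.Agent.P352.NF.E3
import Vale.Agent.P352.NC.E4
import Vale.Agent.P352.NC.E7

/-!
# P352, block E8: growth and the conclusion in the frame
-/

set_option linter.all false

noncomputable section

open MeasureTheory Filter Topology SchwartzMap Complex
open scoped SchwartzMap ComplexConjugate ContDiff LineDeriv NNReal

namespace Vale.Agent.P352.NF

open GF (Ix V Fn Fld Theory Sch IsLor bas eta o sim pd tr ev bar)
open H246 H496 H755 H15 H846 H246R H746 N86 NC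
open UniformSpace (Completion)

variable {D : Type*} [NormedAddCommGroup D] [InnerProductSpace ℂ D]
variable {Q : GF.Theory D} {T : Ix → Ix → GF.Fld D} {J : Ix → GF.Fld D}
variable {A : (V → V) → D → D} {K : V → D → D}

/-- an arithmetic progression that tends to zero vanishes -/
lemma e8_prog {f : ℕ → ℂ} (h : ∀ n, f (n + 2) - 2 * f (n + 1) + f n = 0)
    (h0 : Tendsto f atTop (𝓝 0)) : f 0 = 0 := by
  have h1 : ∀ n, f (n + 1) - f n = f 1 - f 0 := by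
    intro n
    induction n with
    | zero => simp
    | succ n ih =>
      rw [← ih]
      linear_combination h n
  have h2 : f 1 - f 0 = 0 := by
    have h3 : Tendsto (fun n => f (n + 1) - f n) atTop (𝓝 (0 - 0)) :=
      ((tendsto_add_atTop_iff_nat 1).2 h0).sub h0
    simp only [h1, sub_zero] at h3
    exact tendsto_nhds_unique tendsto_const_nhds h3
  have h4 : ∀ n, f n = f 0 := by
    intro n
    induction n with
    | zero => rfl
    | succ n ih =>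
      have := h1 n
      rw [h2, sub_eq_zero] at this
      rw [this, ih]
  have h5 : Tendsto f atTop (𝓝 (f 0)) := by
    have : f = fun _ => f 0 := funext h4
    rw [this]
    exact tendsto_const_nhds
  exact tendsto_nhds_unique h5 h0

/-- null rotations commute with translations along the fixed vector -/
lemma e8_tr (R : H15.Rep Q A) (c : ℝ × ℝ) (r : ℝ) (v : D) :
    Q.U 1 GF.one (r • nu (-1)) (Rn Q c v) = Rn Q c (Q.U 1 GF.one (r • nu (-1)) v) := by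
  unfold Rn
  rw [R.mul 1 GF.one _ 1 (nr c) 0 v one_pos one_pos isLor_one (isLor_nr c),
    R.mul 1 (nr c) 0 1 GF.one _ v one_pos one_pos (isLor_nr c) isLor_one]
  congr 1
  · funext m n
    simp [sim, GF.one, bas]
  · have h1 : sim 1 (nr c) 0 (r • nu (-1)) = r • nu (-1) := by
      rw [simL_smul, nr_nu, one_smul]
    rw [h1]
    funext n
    simp [sim]

lemma e8_adj (hT : Q.IsStress T) (h : KS Q A K) {a : V} (ha : IsNull a) (x : V)
    (n : ℕ) : HasAdj (fun v => pw1 (Hm A) n (Xi A K a x (Xi A K a x v))) := by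
  obtain ⟨Y, hY⟩ := hasAdj_pw1 h.toRep n
  refine ⟨fun w => Xi A K a x (Xi A K a x (Y w)), fun v w => ?_⟩
  rw [hY, Xi_symm hT h ha, Xi_symm hT h ha]

/-- the square in the frame -/
lemma e8_sq (hT : Q.IsStress T) (h : KS Q A K) (c : ℝ × ℝ) (X : D) :
    ∃ θ ψ : ℝ, Rn Q c (Th A K (Th A K (Rn Q (-c) X))) =
      ((((1 + (c.1 ^ 2 + c.2 ^ 2)) / 2)⁻¹ ^ 2 : ℝ) : ℂ) • Q.U 1 (Rt θ ψ) 0
        (Xi A K (nu (-1)) (bas o 1) (Xi A K (nu (-1)) (bas o 1)
          (Q.U 1 (linv (Rt θ ψ)) 0 X))) := by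
  have R : H15.Rep Q A := h.toRep
  obtain ⟨θ, ψ, hf⟩ := Th_frame hT h c
  refine ⟨θ, ψ, ?_⟩
  have hL := isLor_Rt θ ψ
  have h0 : ∀ w : D, Rn Q (-c) (Rn Q c w) = w := by
    intro w
    rw [lw_Rn_Rn R, neg_add_cancel, lw_Rn_zero]
  have h1 := hf (Rn Q c (Th A K (Rn Q (-c) X)))
  rw [h0, hf X, U_smul one_pos (isLor_linv hL), e4_linv_U R hL,
    e1_smulX hT h (isNull_nu (Or.inr rfl)), U_smul one_pos hL, smul_smul] at h1
  rw [h1]
  congr 1
  push_cast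
  ring

theorem frame_zero (hT : Q.IsStress T) (h : KS Q A K) {Φ : V → Fn → D}
    {lm : V → D → ℂ} (P : PV Q A Φ lm) (g : Ix → Ix → 𝓢(Mink, ℂ)) (u : ℝ) :
    lm (nu (-1)) (Q.U 1 GF.one (-(u • nu (-1))) (Th A K (Th A K (tvec Q T g)))) = 0 := by
  have R : H15.Rep Q A := h.toRep
  have hn : IsNull NC.n0 := e3_n0
  have hb : IsNull (nu (-1)) := isNull_nu (Or.inr rfl)
  obtain ⟨X, hXdef⟩ : ∃ X, X = tvec Q T g := ⟨_, rfl⟩
  rw [← hXdef]
  obtain ⟨B, hBdef⟩ : ∃ B : D → D, B = fun v => Th A K (Th A K v) := ⟨_, rfl⟩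
  have hBa : ∀ v, Th A K (Th A K v) = B v := fun v => by rw [hBdef]
  have hB : HasAdj B := by
    rw [hBdef]
    exact e8_adj hT h hn (nu (-1)) 0
  have hBW : ∀ t v, B (H496.Wd Q t v) = H496.Wd Q t (B v) := by
    intro t v
    rw [hBdef]
    simp only
    rw [Th_Wd hT h, Th_Wd hT h]
  obtain ⟨C, n, hC0, hC⟩ := P.bdd (nu (-1))
  obtain ⟨M, hM⟩ := bdd_rotT hT R (e8_adj hT h hb (bas o 1) n) g
  rw [← hXdef] at hM
  -- bounds along the null rotations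
  have hbd : ∀ c : ℝ × ℝ, ‖lm (nu (-1)) (Q.U 1 GF.one (-(u • nu (-1))) (B (Rn Q (-c) X)))‖ ≤
      ((1 + (c.1 ^ 2 + c.2 ^ 2)) / 2)⁻¹ ^ 2 * (C * M) := by
    intro c
    obtain ⟨θ, ψ, hf⟩ := e8_sq hT h c X
    have e1 : lm (nu (-1)) (Q.U 1 GF.one (-(u • nu (-1))) (B (Rn Q (-c) X))) =
        lm (nu (-1)) (Q.U 1 GF.one (-(u • nu (-1))) (Rn Q c (B (Rn Q (-c) X)))) := by
      have e2 : -(u • nu (-1)) = (-u) • nu (-1) := by rw [neg_smul]
      rw [e2, e8_tr R]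
      exact (P.cov (nr c) (nu (-1)) (nu (-1)) _ (isLor_nr c) (by rw [nr_nu, one_smul])).symm
    rw [e1, ← hBa, hf, U_smul one_pos isLor_one, P.smul, norm_mul, Complex.norm_real,
      Real.norm_eq_abs, abs_of_nonneg (by positivity)]
    refine mul_le_mul_of_nonneg_left ?_ (by positivity)
    refine (hC _).trans (mul_le_mul_of_nonneg_left ?_ hC0)
    have e3 : ∀ (x : V) (w : D), ‖pw1 (Hm A) n (Q.U 1 GF.one x w)‖ = ‖pw1 (Hm A) n w‖ := by
      intro x w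
      have e4 := pw1_U1 R n (WithLp.toLp 2 x) w
      have e5 : ‖pw1 (Hm A) n (U1 Q (WithLp.toLp 2 x) w)‖ = ‖pw1 (Hm A) n w‖ := by
        rw [e4, U1_norm]
      exact e5
    rw [e3, pw1_rot R, U_nrm0 one_pos (isLor_Rt θ ψ)]
    exact hM θ ψ
  -- the progression
  have h1 : Tendsto (fun k : ℕ => lm (nu (-1)) (Q.U 1 GF.one (-(u • nu (-1)))
      (B (Rn Q (((k : ℝ), (0 : ℝ)) : ℝ × ℝ) X)))) atTop (𝓝 0) := by
    rw [tendsto_zero_iff_norm_tendsto_zero]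
    have h2 : Tendsto (fun k : ℕ => ((1 + ((k : ℝ) ^ 2)) / 2)⁻¹) atTop (𝓝 0) := by
      refine tendsto_inv_atTop_zero.comp ?_
      refine tendsto_atTop_mono (f := fun k : ℕ => (k : ℝ) / 2) (fun k => ?_) ?_
      · have : (0 : ℝ) ≤ k := Nat.cast_nonneg k
        nlinarith [sq_nonneg ((k : ℝ) - 1)]
      · exact tendsto_natCast_atTop_atTop.atTop_div_const (by norm_num)
    have h3 := (h2.pow 2).mul_const (C * M)
    rw [zero_pow two_ne_zero, zero_mul] at h3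
    refine squeeze_zero (fun k => norm_nonneg _) (fun k => ?_) h3
    have h4 := hbd ((-(k : ℝ), (0 : ℝ)) : ℝ × ℝ)
    have e6 : -((-(k : ℝ), (0 : ℝ)) : ℝ × ℝ) = (((k : ℝ), (0 : ℝ)) : ℝ × ℝ) := by
      ext <;> simp
    rw [e6] at h4
    refine h4.trans (le_of_eq ?_)
    simp
  have h2 := e8_prog (f := fun k : ℕ => lm (nu (-1)) (Q.U 1 GF.one (-(u • nu (-1)))
      (B (Rn Q (((k : ℝ), (0 : ℝ)) : ℝ × ℝ) X)))) (fun k => ?_) h1
  · have e0 : Rn Q ((((0 : ℕ) : ℝ), (0 : ℝ)) : ℝ × ℝ) X = X := by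
      have : ((((0 : ℕ) : ℝ), (0 : ℝ)) : ℝ × ℝ) = 0 := by simp
      rw [this, lw_Rn_zero]
    simp only [e0] at h2
    rw [hBa]
    exact h2
  · have h3 := lemW' R P hB hBW (((1 : ℝ), (0 : ℝ)) : ℝ × ℝ) u
      (Rn Q (((k : ℝ), (0 : ℝ)) : ℝ × ℝ) X)
    rw [lw_Rn_Rn R, lw_Rn_Rn R] at h3
    have e2 : (2 : ℝ) • (((1 : ℝ), (0 : ℝ)) : ℝ × ℝ) + (((k : ℝ), (0 : ℝ)) : ℝ × ℝ) =
        ((((k + 2 : ℕ) : ℝ), (0 : ℝ)) : ℝ × ℝ) := by
      ext <;> simp <;> ring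
    have e3 : (((1 : ℝ), (0 : ℝ)) : ℝ × ℝ) + (((k : ℝ), (0 : ℝ)) : ℝ × ℝ) =
        ((((k + 1 : ℕ) : ℝ), (0 : ℝ)) : ℝ × ℝ) := by
      ext <;> simp <;> ring
    have e4 : ∀ v w : D, v - (2 : ℂ) • w = v + (-2 : ℂ) • w := fun v w => by
      rw [neg_smul, sub_eq_add_neg]
    rw [e2, e3, e4, hB.add, hB.add, hB.smul, U_add one_pos isLor_one, U_add one_pos isLor_one,
      U_smul one_pos isLor_one, P.add, P.add, P.smul] at h3
    rw [← h3]
    ring

end Vale.Agent.P352.NF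

end
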