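import Vale.Agent.P352.NF.E3

/-!
# P352: all null vectors and all points
-/

set_option linter.all false

noncomputable section

open MeasureTheory Filter Topology SchwartzMap Complex
open scoped SchwartzMap ComplexConjugate ContDiff LineDeriv

namespace Vale.Agent.P352.NF

open GF (Ix V Fn Fld Theory Sch IsLor bas eta o sim pd tr ev bar)
open H246 H496 H755 H15 H846 H246R H746 N86 NC
open UniformSpace (Completion)

variable {D : Type*} [NormedAddCommGroup D] [InnerProductSpace ℂ D]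
variable {Q : GF.Theory D} {T : Ix → Ix → GF.Fld D} {J : Ix → GF.Fld D}
variable {A : (V → V) → D → D} {K : V → D → D}

/-! ### The vectors `∑ T^{mn}(g_mn) Ω` are invariant under the similitudes -/

lemma e9_lor {L : Ix → V} (hL : IsLor L) (k' k : Ix) :
    ∑ m, (linv L m k : ℂ) * (L k' m : ℂ) = if k' = k then 1 else 0 := by
  have h := hL.1 k' k
  unfold GF.mdot at h
  have e : ∀ m, (linv L m k : ℂ) * (L k' m : ℂ) =
      ((GF.eta k * (GF.eta m * L k' m * L k m) : ℝ) : ℂ) := fun m => by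
    unfold linv
    push_cast
    ring
  simp only [e]
  rw [← ofReal_sum, ← Finset.mul_sum, h]
  have h1 : GF.eta k' * GF.eta k' = 1 := H746.eta_sq k'
  unfold bas
  by_cases hk : k = k'
  · subst hk
    simp [h1]
  · simp [hk, Ne.symm hk]

lemma e9_inv1 {L : Ix → V} (hL : IsLor L) (x : Ix → D) (k : Ix) :
    ∑ m, (linv L m k : ℂ) • ∑ k', (L k' m : ℂ) • x k' = x k := by
  simp only [Finset.smul_sum, smul_smul]
  rw [Finset.sum_comm]
  simp only [← Finset.sum_smul, e9_lor hL, ite_smul, one_smul, zero_smul, Finset.sum_ite_eq',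
    Finset.mem_univ, if_true]

lemma e9_inv2 {L : Ix → V} (hL : IsLor L) (x : Ix → Ix → D) (k l : Ix) :
    ∑ m, ∑ n, ((linv L m k * linv L n l : ℝ) : ℂ) •
      ∑ k', ∑ l', ((L k' m : ℂ) * (L l' n : ℂ)) • x k' l' = x k l := by
  have h1 : ∀ m, ∑ n, ((linv L m k * linv L n l : ℝ) : ℂ) •
      ∑ k', ∑ l', ((L k' m : ℂ) * (L l' n : ℂ)) • x k' l' =
      (linv L m k : ℂ) • ∑ k', (L k' m : ℂ) • x k' l := by
    intro m
    have h2 : ∀ k', x k' l = ∑ n, (linv L n l : ℂ) • ∑ l', (L l' n : ℂ) • x k' l' :=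
      fun k' => (e9_inv1 hL (x k') l).symm
    have h3 : ∑ k', (L k' m : ℂ) • x k' l = ∑ n, (linv L n l : ℂ) •
        ∑ k', ∑ l', ((L k' m : ℂ) * (L l' n : ℂ)) • x k' l' := by
      conv_lhs => enter [2, k']; rw [h2 k']
      simp only [Finset.smul_sum, smul_smul]
      rw [Finset.sum_comm]
      refine Finset.sum_congr rfl fun n _ => Finset.sum_congr rfl fun k' _ =>
        Finset.sum_congr rfl fun l' _ => ?_
      congr 1
      ring
    rw [h3, Finset.smul_sum]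
    refine Finset.sum_congr rfl fun n _ => ?_
    rw [smul_smul, ofReal_mul]
  simp only [h1]
  exact e9_inv1 hL (fun k' => x k' l) k

lemma e9_perm {M : Type*} [AddCommMonoid M] (f : Ix → Ix → Ix → Ix → M) :
    ∑ m, ∑ n, ∑ m', ∑ n', f m n m' n' = ∑ m', ∑ n', ∑ m, ∑ n, f m n m' n' := by
  have h1 : ∀ m, ∑ n, ∑ m', ∑ n', f m n m' n' = ∑ m', ∑ n', ∑ n, f m n m' n' := by
    intro m
    rw [Finset.sum_comm]
    exact Finset.sum_congr rfl fun m' _ => Finset.sum_comm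
  simp only [h1]
  rw [Finset.sum_comm]
  exact Finset.sum_congr rfl fun m' _ => Finset.sum_comm

/-- the explicit form of the action of the similitudes on the vectors `T^{mn}(F) Ω` -/
lemma e9_U_T (hT : Q.IsStress T) {s : ℝ} (hs : 0 < s) {L : Ix → V} (hL : IsLor L) (y : V)
    (k l : Ix) (F : 𝓢(Mink, ℂ)) : Q.U s L y (T k l (fl F) Q.vac) =
      ∑ m, ∑ n, ((linv L m k * linv L n l : ℝ) : ℂ) • T m n (fl (simJ hs hL y F)) Q.vac := by
  have h : ∀ m n, T m n (fl (simJ hs hL y F)) Q.vac =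
      ∑ k', ∑ l', ((L k' m : ℂ) * (L l' n : ℂ)) • Q.U s L y (T k' l' (fl F) Q.vac) := by
    intro m n
    have h1 := hT.cov m n s L y (fl (simJ hs hL y F)) Q.vac hs hL (isTest_fl _)
    rw [Q.U_vac _ _ _ hs hL] at h1
    rw [h1]
    refine Finset.sum_congr rfl fun k' _ => Finset.sum_congr rfl fun l' _ => ?_
    rw [fl_sim s hs hL y, simS_simJ]
  simp only [h]
  exact (e9_inv2 hL (fun k' l' => Q.U s L y (T k' l' (fl F) Q.vac)) k l).symm

lemma e9_T_sum (hT : Q.IsStress T) (m n : Ix) (c : Ix → Ix → ℂ)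
    (F : Ix → Ix → 𝓢(Mink, ℂ)) (v : D) :
    T m n (fl (∑ k, ∑ l, c k l • F k l)) v = ∑ k, ∑ l, c k l • T m n (fl (F k l)) v := by
  have hf : Q.fld (T m n) := Q.bose_fld _ (hT.bose m n)
  have h : fcl hf v (∑ k, ∑ l, c k l • F k l) = ∑ k, ∑ l, c k l • fcl hf v (F k l) := by
    simp only [map_sum, map_smul]
  simpa only [fcl_apply] using h

theorem tvec_U (hT : Q.IsStress T) (R : H15.Rep Q A) (g : Ix → Ix → 𝓢(Mink, ℂ)) {s : ℝ}
    (hs : 0 < s) {L : Ix → V} (hL : IsLor L) (y : V) :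
    ∃ g', Q.U s L y (tvec Q T g) = tvec Q T g' := by
  refine ⟨fun m n => ∑ k, ∑ l, ((linv L m k * linv L n l : ℝ) : ℂ) • simJ hs hL y (g k l), ?_⟩
  unfold tvec
  rw [N86.U_sum hs hL]
  have h1 : ∀ k, Q.U s L y (∑ l, T k l (fl (g k l)) Q.vac) = ∑ l, ∑ m, ∑ n,
      ((linv L m k * linv L n l : ℝ) : ℂ) • T m n (fl (simJ hs hL y (g k l))) Q.vac := by
    intro k
    rw [N86.U_sum hs hL]
    exact Finset.sum_congr rfl fun l _ => e9_U_T hT hs hL y k l _
  simp only [h1, e9_T_sum hT]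
  exact e9_perm _

/-! ### The frame -/

section

variable (R : H15.Rep Q A)
include R

/-- translations and Lorentz transformations -/
lemma e9_UL {L : Ix → V} (hL : IsLor L) (y : V) (v : D) :
    Q.U 1 GF.one (-(sim 1 L 0 y)) (Q.U 1 L 0 v) = Q.U 1 L 0 (Q.U 1 GF.one (-y) v) := by
  rw [R.mul 1 GF.one _ 1 L 0 v one_pos one_pos isLor_one hL,
    R.mul 1 L 0 1 GF.one (-y) v one_pos one_pos hL isLor_one]
  have e1 : (fun m => sim 1 GF.one 0 (L m)) = fun m => sim 1 L 0 (GF.one m) := by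
    funext m n
    rw [sim_one']
    simp [sim, GF.one, bas]
  have e2 : sim 1 GF.one (-(sim 1 L 0 y)) 0 = sim 1 L 0 (-y) := by
    rw [sim_one', zero_add, ← neg_one_smul ℝ y, simL_smul, neg_one_smul]
  rw [e1, e2]

lemma e9_UU (x y : V) (v : D) :
    Q.U 1 GF.one x (Q.U 1 GF.one y v) = Q.U 1 GF.one (x + y) v :=
  U1_U1_all (Q := Q) (WithLp.toLp 2 x) (WithLp.toLp 2 y) v

/-- null rotations have inverses -/
lemma e9_Rn (c : ℝ × ℝ) (v : D) : Rn Q (-c) (Rn Q c v) = v := by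
  unfold Rn
  rw [R.mul 1 (nr (-c)) 0 1 (nr c) 0 v one_pos one_pos (isLor_nr (-c)) (isLor_nr c), nr_add,
    one_mul, sim_zero', neg_add_cancel]
  have e : nr (0 : ℝ × ℝ) = GF.one := by
    funext m n
    fin_cases m <;> fin_cases n <;> simp [nr, GF.one, bas]
  rw [e]
  exact Uone v

end

/-- the null vectors `a` with `a·nu (-1) = 1` -/
lemma e9_m {a : V} (ha : IsNull a) (h : GF.mdot a (nu (-1)) = 1) : a = e3_m (a 2, a 3) := by
  have h1 := ha.1
  rw [gf_mdot] at h h1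
  simp only [nu] at h
  rw [e3_m_apply]
  have h2 : a 0 + a 1 = 1 := by
    have := h
    simp at this
    linarith
  have h3 : a 0 - a 1 = a 2 ^ 2 + a 3 ^ 2 := by
    have h4 : (a 0 - a 1) * (a 0 + a 1) = a 2 ^ 2 + a 3 ^ 2 := by linear_combination h1
    rwa [h2, mul_one] at h4
  funext n
  fin_cases n
  · show a 0 = (1 + (a 2 ^ 2 + a 3 ^ 2)) / 2
    linarith
  · show a 1 = (1 - (a 2 ^ 2 + a 3 ^ 2)) / 2
    linarith
  · rfl
  · rfl

/-- the block E9, from the conclusion of E8 -/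
theorem all_zero_of (hT : Q.IsStress T) (h : KS Q A K) {Φ : V → Fn → D}
    {lm : V → D → ℂ} (P : PV Q A Φ lm)
    (hfr : ∀ (g : Ix → Ix → 𝓢(Mink, ℂ)) (u : ℝ),
      lm (nu (-1)) (Q.U 1 GF.one (-(u • nu (-1))) (Th A K (Th A K (tvec Q T g)))) = 0)
    (g : Ix → Ix → 𝓢(Mink, ℂ)) {a b : V} (ha : IsNull a)
    (hb : IsNull b) (hab : GF.mdot a b = 1) (hb0 : b o = 1) (x : V) :
    lm b (Q.U 1 GF.one (-x) (Xi A K a b (Xi A K a b (tvec Q T g)))) = 0 := by
  have R := h.toRep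
  obtain ⟨θ, ψ, hrot⟩ := exists_rot hb
  have hL := isLor_Rt θ ψ
  have hb0' : b 0 = 1 := hb0
  rw [hb0', inv_one, one_smul] at hrot
  -- the component of `x` along the null plane
  set u : ℝ := GF.mdot a x with hu
  set w : V := x - u • b with hw
  have haw : GF.mdot a (-w) = 0 := by
    have h1 := md_smul a (-1) w
    rw [neg_one_smul] at h1
    rw [h1, hw, md_sub, md_smul, hab]
    ring
  have ex : -x = -(u • b) + -w := by rw [hw]; abel
  rw [ex, ← e9_UU R, ← Xi_comm hT h ha haw, ← Xi_comm hT h ha haw]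
  obtain ⟨g0, hg0⟩ := tvec_U hT R g one_pos isLor_one (-w)
  rw [hg0]
  -- the rotation
  obtain ⟨g1, hg1⟩ := tvec_U hT R g0 one_pos (isLor_linv hL) 0
  have hv : tvec Q T g0 = Q.U 1 (Rt θ ψ) 0 (tvec Q T g1) := by
    rw [← hg1]
    have h4 := H755.U_linv' R one_pos hL (tvec Q T g0)
    rw [inv_one] at h4
    exact h4.symm
  set a' : V := sim 1 (linv (Rt θ ψ)) 0 a with ha'
  have hna' : IsNull a' := isNull_lor (isLor_linv hL) ha
  have hra : sim 1 (Rt θ ψ) 0 a' = (1 : ℝ) • a := by rw [ha', sim_linv hL, one_smul]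
  have hab' : GF.mdot a' (nu (-1)) = 1 := by
    rw [ha', ← md_LL hL, sim_linv hL, hrot]
    exact hab
  have hX : ∀ v, Xi A K a b (Q.U 1 (Rt θ ψ) 0 v) = Q.U 1 (Rt θ ψ) 0 (Xi A K a' (nu (-1)) v) := by
    intro v
    have h1 := Xi_cov hT h one_pos one_pos hL hna' ha hra (nu (-1)) v
    rw [hrot, div_one, ofReal_one, one_smul] at h1
    exact h1.symm
  rw [hv, hX, hX]
  -- the null rotation
  set c : ℝ × ℝ := (a' 2, a' 3) with hc
  have hm : a' = e3_m c := e9_m hna' hab'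
  have hX' : ∀ v, Xi A K a' (nu (-1)) v = Rn Q c (Th A K (Rn Q (-c) v)) := by
    intro v
    rw [Th_conj hT h c v, hm]
  obtain ⟨g2, hg2⟩ := tvec_U hT R g1 one_pos (isLor_nr (-c)) 0
  have hg2' : Rn Q (-c) (tvec Q T g1) = tvec Q T g2 := hg2
  rw [hX', hX', e9_Rn R, hg2']
  -- the translation
  have hub : u • b = sim 1 (Rt θ ψ) 0 (u • nu (-1)) := by rw [simL_smul, hrot]
  have hun : u • nu (-1) = sim 1 (nr c) 0 (u • nu (-1)) := by
    rw [simL_smul, nr_nu, one_smul]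
  rw [hub, e9_UL R hL, P.cov (Rt θ ψ) (nu (-1)) b _ hL hrot]
  unfold Rn
  conv_lhs => rw [hun]
  rw [e9_UL R (isLor_nr c), P.cov (nr c) (nu (-1)) (nu (-1)) _ (isLor_nr c)
    (by rw [nr_nu, one_smul])]
  exact hfr g2 u

end Vale.Agent.P352.NF

end
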