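import Vale.Agent.P352.NF.F6
import Vale.Agent.P352.NF.F7

/-!
# Conformal invariance from the instances of the neutral charge
-/

set_option linter.all false

noncomputable section

open MeasureTheory Filter Topology

namespace Vale.Agent.P352.NF

open GF (Ix V Fn Fld bas eta o bar)
open H755 H496 H15 H121 H246

variable {D : Type*} [NormedAddCommGroup D] [InnerProductSpace ℂ D]
variable {Q : GF.Theory D} {T : Ix → Ix → GF.Fld D} {J : Ix → GF.Fld D}
  {A : (V → V) → D → D} {K : V → D → D}

/-- **Conformal invariance** from the properties of the neutral charge for all null frames. -/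
theorem conf_kc (hT : Q.IsStress T) (hJ : IsVirial Q T J) (h : NullMom Q T A K)
    (k : ∀ a b, IsNull a → IsNull b → GF.mdot a b = 1 →
      H731.KC Q A a (K a) (Cop Q A K a b)) : N86.ConfInv Q T :=
  conf_fin hT hJ h (fun a b ha hb hab => (k a b ha hb hab).cs)
    (fun a b ha hb hab x v => (k a b ha hb hab).tra x v)
    (fun a b ha hb hab m n f v hf => hcT1 hT h.mom (k a b ha hb hab) m n hf v)
    (fun a b ha hb hab m f v hf => hcJ1 hT hJ h.mom (k a b ha hb hab) m hf v)

end Vale.Agent.P352.NF

end
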